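import Vale.Agent.P006.H570.Inst

/-!
# Elements of `ℤ[ω]` in residue classes; sums of periodic characters
-/

namespace Vale.Agent.P006.H570

open Finset

/-- all elements of norm at most `x` -/
noncomputable def nb (x : ℝ) : Finset O := (finite_norm_le ⌊x⌋₊).toFinset

lemma mem_nb {x : ℝ} (hx : 0 ≤ x) {a : O} : a ∈ nb x ↔ (N a : ℝ) ≤ x := by
  simp only [nb, Set.Finite.mem_toFinset, Set.mem_ofPred_eq]
  exact Nat.le_floor_iff hx

open Classical in
/-- number of `b ≡ c mod M` with `N b ≤ x` -/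
lemma card_class (c M : O) (hM : M ≠ 0) {x : ℝ} (hx : 0 ≤ x) :
    ((nb x).filter (fun b => M ∣ b - c)).card =
      Lat.cnt (-(toC c / toC M)) (√x / ‖toC M‖) := by
  have hM' : toC M ≠ 0 := by simpa using hM
  rw [Lat.cnt]
  symm
  refine card_bij (fun p _ => c + M * (⟨p.1, p.2⟩ : O)) ?_ ?_ ?_
  · intro p hp
    rw [Set.Finite.mem_toFinset] at hp
    have h1 : ‖Lat.em p.1 p.2 - -(toC c / toC M)‖ ≤ √x / ‖toC M‖ := hp
    rw [mem_filter, mem_nb hx]
    refine ⟨?_, ⟨⟨p.1, p.2⟩, by ring⟩⟩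
    have h2 : toC (c + M * (⟨p.1, p.2⟩ : O)) = toC M * (Lat.em p.1 p.2 - -(toC c / toC M)) := by
      rw [map_add, map_mul, toC_eq_em ⟨p.1, p.2⟩]
      field_simp; ring
    rw [N_eq_sq_norm, h2, norm_mul]
    have h3 : ‖toC M‖ * ‖Lat.em p.1 p.2 - -(toC c / toC M)‖ ≤ √x := by
      rw [le_div_iff₀ (norm_pos_iff.2 hM')] at h1
      linarith
    calc (‖toC M‖ * ‖Lat.em p.1 p.2 - -(toC c / toC M)‖) ^ 2 ≤ √x ^ 2 :=
          pow_le_pow_left₀ (by positivity) h3 2
      _ = x := Real.sq_sqrt hx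
  · intro p _ q _ h
    have h1 := mul_left_cancel₀ hM (add_left_cancel h)
    have h2 := congrArg QuadraticAlgebra.re h1
    have h3 := congrArg QuadraticAlgebra.im h1
    exact Prod.ext h2 h3
  · intro b hb
    rw [mem_filter, mem_nb hx] at hb
    obtain ⟨hb1, y, hy⟩ := hb
    have hb2 : b = c + M * y := by rw [← hy]; ring
    refine ⟨(y.re, y.im), ?_, ?_⟩
    · rw [Set.Finite.mem_toFinset]
      show ‖Lat.em y.re y.im - -(toC c / toC M)‖ ≤ √x / ‖toC M‖
      rw [le_div_iff₀ (norm_pos_iff.2 hM')]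
      have h2 : toC b = toC M * (Lat.em y.re y.im - -(toC c / toC M)) := by
        rw [hb2, map_add, map_mul, toC_eq_em y]
        field_simp; ring
      have h3 : ‖toC b‖ ≤ √x := by
        rw [norm_toC]; exact Real.sqrt_le_sqrt hb1
      rw [h2, norm_mul] at h3
      linarith
    · rw [hb2]

open Classical in
lemma card_class_sub_le (c M : O) (hM : M ≠ 0) {x : ℝ} (hx : 0 ≤ x) :
    |(((nb x).filter (fun b => M ∣ b - c)).card : ℝ) - 2 * Real.pi * (x / N M) / √3| ≤
      8 * (√(x / N M) + 1) := by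
  rw [card_class c M hM hx]
  have hM' : 0 < ‖toC M‖ := norm_pos_iff.2 (by simpa using hM)
  have h := Lat.abs_cnt_sub_le (-(toC c / toC M)) (r := √x / ‖toC M‖) (by positivity)
  have h1 : (√x / ‖toC M‖) ^ 2 = x / N M := by
    rw [div_pow, Real.sq_sqrt hx, ← N_eq_sq_norm]
  have h2 : √(x / N M) = √x / ‖toC M‖ := by
    rw [norm_toC, Real.sqrt_div hx]
  rw [h2]
  rwa [h1] at h

lemma card_nb {x : ℝ} (hx : 0 ≤ x) : ((nb x).card : ℝ) ≤ 4 * (√x + 1) ^ 2 := by
  classical
  have h := card_class 0 1 one_ne_zero hx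
  have h1 : (nb x).filter (fun b => (1 : O) ∣ b - 0) = nb x := by
    apply filter_true_of_mem; intro b _; exact one_dvd _
  rw [h1] at h
  rw [h]
  have h2 := Lat.cnt_le (-(toC 0 / toC 1)) (r := √x / ‖toC 1‖) (by positivity)
  have h3 : √x / ‖toC 1‖ = √x := by simp
  rw [h3] at h2 ⊢
  have h4 : (1.73 : ℝ) < √3 := by
    rw [Real.lt_sqrt (by norm_num)]; norm_num
  have hc : 2 * Real.pi / √3 ≤ 4 := by
    rw [div_le_iff₀ (by positivity)]; nlinarith [Real.pi_lt_d2]
  calc _ ≤ 2 * Real.pi * (√x + 1) ^ 2 / √3 := h2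
    _ = (2 * Real.pi / √3) * (√x + 1) ^ 2 := by ring
    _ ≤ _ := by
      apply mul_le_mul_of_nonneg_right hc (by positivity)

/-! ### residue classes -/

lemma finite_quot (M : O) (hM : M ≠ 0) : Finite (O ⧸ Ideal.span {M}) := by
  have h : Set.SurjOn (Ideal.Quotient.mk (Ideal.span {M})) {a : O | N a ≤ N M} Set.univ := by
    intro c _
    obtain ⟨b, rfl⟩ := Ideal.Quotient.mk_surjective c
    refine ⟨b - M * quo b M, (N_rem_lt b hM).le, ?_⟩
    rw [Ideal.Quotient.eq, Ideal.mem_span_singleton]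
    exact ⟨-quo b M, by ring⟩
  have h2 : (Set.univ : Set (O ⧸ Ideal.span {M})).Finite :=
    Set.Finite.of_surjOn _ h (finite_norm_le _)
  exact Set.finite_univ_iff.1 h2

lemma card_quot_le (M : O) (hM : M ≠ 0) : (Nat.card (O ⧸ Ideal.span {M}) : ℝ) ≤ 16 * N M := by
  classical
  have := finite_quot M hM
  have := Fintype.ofFinite (O ⧸ Ideal.span {M})
  have h : Set.SurjOn (Ideal.Quotient.mk (Ideal.span {M})) (nb (N M) : Set O)
      ((univ : Finset (O ⧸ Ideal.span {M})) : Set _) := by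
    intro c _
    obtain ⟨b, rfl⟩ := Ideal.Quotient.mk_surjective c
    refine ⟨b - M * quo b M, ?_, ?_⟩
    · rw [mem_coe, mem_nb (by positivity)]
      exact_mod_cast (N_rem_lt b hM).le
    · rw [Ideal.Quotient.eq, Ideal.mem_span_singleton]
      exact ⟨-quo b M, by ring⟩
  have h2 : Nat.card (O ⧸ Ideal.span {M}) ≤ (nb (N M)).card := by
    rw [Nat.card_eq_fintype_card, ← card_univ]
    exact card_le_card_of_surjOn (Ideal.Quotient.mk (Ideal.span {M})) h
  have h3 := card_nb (x := (N M : ℝ)) (by positivity)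
  have hN : (1 : ℝ) ≤ N M := by exact_mod_cast N_pos hM
  have h4 : √(N M : ℝ) + 1 ≤ 2 * √(N M : ℝ) := by
    have : 1 ≤ √(N M : ℝ) := Real.one_le_sqrt.2 hN
    linarith
  calc (Nat.card (O ⧸ Ideal.span {M}) : ℝ) ≤ (nb (N M)).card := by exact_mod_cast h2
    _ ≤ 4 * (√(N M : ℝ) + 1) ^ 2 := h3
    _ ≤ 4 * (2 * √(N M : ℝ)) ^ 2 := by gcongr
    _ = 16 * N M := by rw [mul_pow, Real.sq_sqrt (by positivity)]; ring

open Classical in
/-- Sum of a function of the residue class with mean zero. -/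
theorem norm_sum_class_le (M : O) (hM : M ≠ 0) (F : (O ⧸ Ideal.span {M}) → ℂ)
    (hF : ∀ c, ‖F c‖ ≤ 1) [Fintype (O ⧸ Ideal.span {M})] (hF0 : ∑ c, F c = 0)
    {x : ℝ} (hx : 1 ≤ x) :
    ‖∑ b ∈ nb x, F (Ideal.Quotient.mk _ b)‖ ≤ 256 * N M * √x := by
  have hx0 : 0 ≤ x := by linarith
  set m : ℝ := 2 * Real.pi * (x / N M) / √3 with hm
  have h1 : ∑ b ∈ nb x, F (Ideal.Quotient.mk _ b) =
      ∑ c, F c * (((nb x).filter (fun b => Ideal.Quotient.mk (Ideal.span {M}) b = c)).card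
        - (m : ℂ)) := by
    have h2 : ∑ c, F c * (((nb x).filter
        (fun b => Ideal.Quotient.mk (Ideal.span {M}) b = c)).card - (m : ℂ)) =
        ∑ c, F c * ((nb x).filter
        (fun b => Ideal.Quotient.mk (Ideal.span {M}) b = c)).card := by
      simp_rw [mul_sub, sum_sub_distrib, ← sum_mul, hF0, zero_mul, sub_zero]
    rw [h2, ← sum_fiberwise (nb x) (fun b => Ideal.Quotient.mk (Ideal.span {M}) b)]
    refine sum_congr rfl fun c _ => ?_
    rw [sum_congr rfl (g := fun _ => F c)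
      (fun b hb => by rw [(mem_filter.1 hb).2])]
    rw [sum_const, nsmul_eq_mul, mul_comm]
  have hN : (1 : ℝ) ≤ N M := by exact_mod_cast N_pos hM
  rw [h1]
  calc _ ≤ ∑ c, ‖F c * (((nb x).filter
        (fun b => Ideal.Quotient.mk (Ideal.span {M}) b = c)).card - (m : ℂ))‖ := norm_sum_le _ _
    _ ≤ ∑ c : O ⧸ Ideal.span {M}, 8 * (√x + 1) := by
        refine sum_le_sum fun c _ => ?_
        obtain ⟨c0, rfl⟩ := Ideal.Quotient.mk_surjective c
        rw [norm_mul]
        have h3 : ((((nb x).filter (fun b => Ideal.Quotient.mk (Ideal.span {M}) b =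
            Ideal.Quotient.mk (Ideal.span {M}) c0)).card : ℂ) - (m : ℂ)) =
            (((((nb x).filter (fun b => M ∣ b - c0)).card : ℝ) - m : ℝ) : ℂ) := by
          push_cast
          congr 4
          ext b
          simp only [Ideal.Quotient.eq, Ideal.mem_span_singleton]
        rw [h3, Complex.norm_real, Real.norm_eq_abs]
        have h4 := card_class_sub_le c0 M hM hx0
        have h5 : √(x / N M) ≤ √x := Real.sqrt_le_sqrt (div_le_self hx0 hN)
        calc ‖F (Ideal.Quotient.mk _ c0)‖ * |(((nb x).filter (fun b => M ∣ b - c0)).card : ℝ) - m|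
            ≤ 1 * (8 * (√(x / N M) + 1)) := mul_le_mul (hF _) h4 (abs_nonneg _) zero_le_one
          _ ≤ 8 * (√x + 1) := by linarith
    _ = Nat.card (O ⧸ Ideal.span {M}) * (8 * (√x + 1)) := by
        rw [sum_const, nsmul_eq_mul, card_univ, Nat.card_eq_fintype_card]
    _ ≤ (16 * N M) * (8 * (√x + 1)) := by
        gcongr; exact card_quot_le M hM
    _ ≤ (16 * N M) * (8 * (2 * √x)) := by
        have : 1 ≤ √x := Real.one_le_sqrt.2 hx
        gcongr; linarith
    _ = 256 * N M * √x := by ring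

end Vale.Agent.P006.H570
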