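import Vale.Agent.P006.H570.SWMain
import Vale.Agent.P006.KU.Inst

/-!
# Siegel–Walfisz for the cubic residue symbol `b ↦ (k/b)_3`, `k` not a cube
-/

namespace Vale.Agent.P006.H570

open Finset

/-- the character `b ↦ (k/b)_3` on primary elements -/
noncomputable def symChar (k : O) : PO.Char where
  f := fun b => toC (sym k b)
  one := by rw [sym_one_right, map_one]
  mul := fun a ha b hb => by
    rw [sym_mul_right k (PO.ne_zero ha) (PO.ne_zero hb), map_mul]
  vals := fun a _ => by
    by_cases h : IsCoprime k a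
    · right; rw [← map_pow, sym_cube h, map_one]
    · left; rw [sym_eq_zero.2 h, map_zero]

@[simp] lemma symChar_f (k b : O) : (symChar k).f b = toC (sym k b) := rfl

lemma N_nine_mul (k : O) : N (9 * k) = 81 * N k := by
  rw [N_mul]
  have : N (9 : O) = 81 := by decide
  rw [this]

theorem isPer_symChar {k : O} (hk0 : k ≠ 0) (hk : ¬ ∃ m : O, k = m ^ 3) :
    IsPer (symChar k) (9 * k) where
  ne := mul_ne_zero (by decide) hk0
  three := (show (3 : O) ∣ 9 from ⟨3, by norm_num⟩).mul_right k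
  per := fun a ha b _ hab => by
    rw [symChar_f, symChar_f]
    have h := KU.symData.congr_right hk0 ha ((Dvd.intro k rfl).trans hab)
      ((Dvd.intro_left 9 rfl).trans hab)
    rw [KU.symData_sym, KU.symData_sym] at h
    rw [h]
  nontriv := by
    obtain ⟨d, hd, hcop, hne⟩ := KU.exists_primary_sym_ne_one hk0 hk
    refine ⟨d, hd, ?_, ?_⟩
    · have h3 : IsCoprime d (3 : O) := hd.isCoprime_three.symm
      have h9 : IsCoprime d (9 : O) := by
        have : (9 : O) = 3 * 3 := by norm_num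
        rw [this]; exact h3.mul_right h3
      exact h9.mul_right hcop.symm
    · rw [symChar_f, ← map_one toC, Ne, toC_inj]; exact hne

open Classical in
/-- if the (coefficient) twist `a ↦ (k₀ n³/a)` with `k₀` not a cube -/
lemma sym_mul_cube (k n a : O) : toC (sym (k * n ^ 3) a) =
    if IsCoprime n a then toC (sym k a) else 0 := by
  rw [sym_mul_left, sym_pow_left, map_mul]
  split_ifs with h
  · rw [sym_cube h, map_one, mul_one]
  · rw [sym_eq_zero.2 h]; simp

/-- **Siegel–Walfisz for cubic residue symbols and class G coefficients** (with threshold). -/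
theorem SW_sym (A C : ℕ) : ∃ c0 : ℝ, 0 < c0 ∧
    ∀ (k n : O), n ≠ 0 → (¬ ∃ m : O, k = m ^ 3) → ∀ X t : ℝ, 3 ≤ X →
      (N k : ℝ) ≤ (Real.log X) ^ C → (N n : ℝ) ≤ X ^ C → |t| ≤ (Real.log X) ^ C →
      ∀ (α : O → ℂ) (G T : ℝ), ClassGT α X G T → T ≤ (Real.log X) ^ C →
      ‖∑ a ∈ PB X, α a * toC (sym (k * n ^ 3) a) * nit t a‖ ≤
        c0 * G * X / (Real.log X) ^ A := by
  classical
  obtain ⟨c0, hc0, h⟩ := SWGT A (C + 7)
  obtain ⟨c1, hc1, h1⟩ : ∃ c1 : ℝ, 0 < c1 ∧ ∀ X : ℝ, 3 ≤ X → 2 > Real.log X →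
      1 ≤ c1 / (Real.log X) ^ A := by
    refine ⟨2 ^ A, by positivity, fun X hX h2 => ?_⟩
    have := one_lt_log hX
    rw [le_div_iff₀ (by positivity), one_mul]
    exact pow_le_pow_left₀ (by linarith) h2.le A
  refine ⟨c0 + 4 * c1, by positivity, ?_⟩
  intro k n hn hk X t hX hNk hNn ht α G T hα hT
  have hk0 : k ≠ 0 := by
    rintro rfl
    exact hk ⟨0, by simp⟩
  have hX0 : 0 < X := by linarith
  have hL1 := one_lt_log hX
  have hG := hα.nonneg
  have e1 : ∑ a ∈ PB X, α a * toC (sym (k * n ^ 3) a) * nit t a =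
      ∑ a ∈ PB X with IsCoprime a n, α a * (symChar k).f a * nit t a := by
    rw [sum_filter]
    refine sum_congr rfl fun a _ => ?_
    rw [sym_mul_cube, symChar_f]
    by_cases hc : IsCoprime n a
    · rw [if_pos hc, if_pos hc.symm]
    · rw [if_neg hc, if_neg (fun h => hc h.symm), mul_zero, zero_mul]
  rw [e1]
  rcases lt_or_ge (Real.log X) 2 with h2 | h2
  · have h3 := h1 X hX h2
    have h4 : ‖∑ a ∈ PB X with IsCoprime a n, α a * (symChar k).f a * nit t a‖ ≤ 4 * X * G := by
      rw [sum_FF]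
      refine (norm_sum_le _ _).trans ?_
      calc ∑ a ∈ PB X, ‖FF (symChar k) t n α a‖ ≤ ∑ a ∈ PB X, G :=
            sum_le_sum fun a ha => norm_FF_le (symChar k) t n hα (mem_PB.1 ha).1
        _ = (PB X).card * G := by rw [sum_const, nsmul_eq_mul]
        _ ≤ _ := mul_le_mul_of_nonneg_right (card_PB_le hX0.le) hG
    have hGX : 0 ≤ G * X := by positivity
    calc _ ≤ 4 * X * G := h4
      _ = 4 * (G * X) * 1 := by ring
      _ ≤ 4 * (G * X) * (c1 / (Real.log X) ^ A) := by gcongr
      _ ≤ 4 * (G * X) * (c1 / (Real.log X) ^ A) + c0 * G * X / (Real.log X) ^ A := by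
          have : 0 ≤ c0 * G * X / (Real.log X) ^ A := by positivity
          linarith
      _ = _ := by ring
  · have hpow : (Real.log X) ^ C ≤ (Real.log X) ^ (C + 7) :=
      pow_le_pow_right₀ hL1.le (by omega)
    have hM : (N (9 * k) : ℝ) ≤ (Real.log X) ^ (C + 7) := by
      rw [N_nine_mul, pow_add]
      push_cast
      have h128 : (81 : ℝ) ≤ (Real.log X) ^ 7 := by
        calc (81 : ℝ) ≤ 2 ^ 7 := by norm_num
          _ ≤ _ := pow_le_pow_left₀ (by norm_num) h2 7
      calc (81 : ℝ) * N k ≤ (Real.log X) ^ 7 * (Real.log X) ^ C := by gcongr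
        _ = _ := mul_comm _ _
    have h5 := h (symChar k) (9 * k) (isPer_symChar hk0 hk) X t hX hM (ht.trans hpow) n hn
      (hNn.trans (pow_le_pow_right₀ (by linarith) (by omega))) α G T hα (hT.trans hpow)
    refine h5.trans ?_
    rw [div_le_div_iff_of_pos_right (by positivity)]
    have : 0 ≤ 4 * c1 * G * X := by positivity
    nlinarith

end Vale.Agent.P006.H570
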