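import Mathlib

/-!
# Lattice points of `ℤ[ω]` in discs (model free, coordinates in `ℤ × ℤ`)
-/

namespace Vale.Agent.P006.H570.Lat

open Finset MeasureTheory

/-- `a + b ω` for real `a, b` -/
noncomputable def em (a b : ℝ) : ℂ := ⟨a - b / 2, b * (√3 / 2)⟩

lemma em_add (a b c d : ℝ) : em (a + c) (b + d) = em a b + em c d := by
  apply Complex.ext <;> simp [em] <;> ring

lemma em_sub (a b c d : ℝ) : em (a - c) (b - d) = em a b - em c d := by
  apply Complex.ext <;> simp [em] <;> ring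

lemma normSq_em (a b : ℝ) : Complex.normSq (em a b) = a ^ 2 - a * b + b ^ 2 := by
  have h3 : (√3 : ℝ) ^ 2 = 3 := Real.sq_sqrt (by norm_num)
  rw [Complex.normSq_apply]
  simp only [em]
  nlinarith [h3]

lemma norm_em_sq (a b : ℝ) : ‖em a b‖ ^ 2 = a ^ 2 - a * b + b ^ 2 := by
  rw [← normSq_em, Complex.normSq_eq_norm_sq]

/-- the linear map `(s,t) ↦ s + t ω` in real coordinates -/
noncomputable def lin : (ℝ × ℝ) →ₗ[ℝ] (ℝ × ℝ) where
  toFun p := (p.1 - p.2 / 2, p.2 * (√3 / 2))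
  map_add' p q := by ext <;> simp <;> ring
  map_smul' c p := by ext <;> simp <;> ring

lemma det_lin : LinearMap.det lin = √3 / 2 := by
  rw [← LinearMap.det_toMatrix (Module.Basis.finTwoProd ℝ)]
  rw [Matrix.det_fin_two]
  simp [LinearMap.toMatrix_apply, lin]

/-- the disc in coordinates -/
def disc (z : ℂ) (r : ℝ) : Set (ℝ × ℝ) := {p | ‖em p.1 p.2 - z‖ ≤ r}

lemma disc_eq (z : ℂ) (r : ℝ) :
    disc z r = lin ⁻¹' (Complex.measurableEquivRealProd '' Metric.closedBall z r) := by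
  ext p
  simp only [disc, Set.mem_ofPred_eq, Set.mem_preimage, Set.mem_image, Metric.mem_closedBall,
    Complex.dist_eq]
  constructor
  · intro h
    exact ⟨em p.1 p.2, h, rfl⟩
  · rintro ⟨w, hw, h⟩
    have : w = em p.1 p.2 := by
      have h1 := congrArg Prod.fst h
      have h2 := congrArg Prod.snd h
      simp only [Complex.measurableEquivRealProd_apply, lin, LinearMap.coe_mk,
        AddHom.coe_mk] at h1 h2
      exact Complex.ext h1 h2
    rwa [this] at hw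

lemma volume_disc (z : ℂ) {r : ℝ} (hr : 0 ≤ r) :
    volume (disc z r) = ENNReal.ofReal (2 * Real.pi * r ^ 2 / √3) := by
  rw [disc_eq, Measure.addHaar_preimage_linearMap volume (by rw [det_lin]; positivity), det_lin]
  have h1 : volume (Complex.measurableEquivRealProd '' Metric.closedBall z r)
      = volume (Metric.closedBall z r) := by
    rw [MeasurableEquiv.image_eq_preimage_symm]
    exact Complex.volume_preserving_equiv_real_prod.symm.measure_preimage_equiv _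
  rw [h1, Complex.volume_closedBall]
  have h3 : (0 : ℝ) < √3 := by positivity
  rw [abs_of_nonneg (by positivity)]
  rw [show (NNReal.pi : ENNReal) = ENNReal.ofReal Real.pi by
    rw [ENNReal.ofReal_eq_coe_nnreal Real.pi_pos.le]; rfl]
  rw [← ENNReal.ofReal_pow hr, ← ENNReal.ofReal_mul (by positivity),
    ← ENNReal.ofReal_mul (by positivity)]
  congr 1
  field_simp

lemma measurableSet_disc (z : ℂ) (r : ℝ) : MeasurableSet (disc z r) := by
  have h : Continuous fun p : ℝ × ℝ => ‖em p.1 p.2 - z‖ := by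
    have : Continuous fun p : ℝ × ℝ => em p.1 p.2 := by
      have h2 : (fun p : ℝ × ℝ => em p.1 p.2)
          = fun p : ℝ × ℝ => ((p.1 - p.2 / 2 : ℝ) : ℂ) + ((p.2 * (√3 / 2) : ℝ) : ℂ) * Complex.I := by
        ext p; apply Complex.ext <;> simp [em]
      rw [h2]; fun_prop
    fun_prop
  exact (isClosed_le h continuous_const).measurableSet

/-- the unit cell at a lattice point -/
def cell (p : ℤ × ℤ) : Set (ℝ × ℝ) :=
  Set.Ico (p.1 : ℝ) (p.1 + 1) ×ˢ Set.Ico (p.2 : ℝ) (p.2 + 1)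

lemma volume_cell (p : ℤ × ℤ) : volume (cell p) = 1 := by
  rw [cell, Measure.volume_eq_prod, Measure.prod_prod, Real.volume_Ico, Real.volume_Ico]
  simp

lemma measurableSet_cell (p : ℤ × ℤ) : MeasurableSet (cell p) :=
  measurableSet_Ico.prod measurableSet_Ico

lemma mem_cell_iff {p : ℤ × ℤ} {x : ℝ × ℝ} : x ∈ cell p ↔ ⌊x.1⌋ = p.1 ∧ ⌊x.2⌋ = p.2 := by
  simp only [cell, Set.mem_prod, Set.mem_Ico, Int.floor_eq_iff]

lemma pairwise_disjoint_cell (s : Set (ℤ × ℤ)) : s.PairwiseDisjoint cell := by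
  intro p _ q _ hpq
  rw [Function.onFun, Set.disjoint_left]
  intro x hx hy
  rw [mem_cell_iff] at hx hy
  exact hpq (Prod.ext (hx.1.symm.trans hy.1) (hx.2.symm.trans hy.2))

lemma cell_dist {p : ℤ × ℤ} {x : ℝ × ℝ} (hx : x ∈ cell p) :
    ‖em x.1 x.2 - em p.1 p.2‖ ≤ 1 := by
  rw [← em_sub]
  simp only [cell, Set.mem_prod, Set.mem_Ico] at hx
  obtain ⟨⟨h1, h2⟩, h3, h4⟩ := hx
  have h5 : ‖em (x.1 - p.1) (x.2 - p.2)‖ ^ 2 ≤ 1 := by
    rw [norm_em_sq]
    have ha : 0 ≤ x.1 - p.1 := by linarith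
    have ha' : x.1 - p.1 ≤ 1 := by linarith
    have hb : 0 ≤ x.2 - p.2 := by linarith
    have hb' : x.2 - p.2 ≤ 1 := by linarith
    nlinarith [mul_nonneg ha hb, mul_nonneg (sub_nonneg.2 ha') (sub_nonneg.2 hb'),
      mul_nonneg ha (sub_nonneg.2 ha'), mul_nonneg hb (sub_nonneg.2 hb'),
      mul_nonneg ha (sub_nonneg.2 hb'), mul_nonneg hb (sub_nonneg.2 ha')]
  nlinarith [norm_nonneg (em (x.1 - p.1) (x.2 - p.2))]

/-- the lattice points in the disc -/
def pts (z : ℂ) (r : ℝ) : Set (ℤ × ℤ) := {p | ‖em p.1 p.2 - z‖ ≤ r}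

lemma pts_finite (z : ℂ) (r : ℝ) : (pts z r).Finite := by
  -- bounded coordinates
  have hb : ∀ p ∈ pts z r, |(p.1 : ℝ)| ≤ 2 * (‖z‖ + r) ∧ |(p.2 : ℝ)| ≤ 2 * (‖z‖ + r) := by
    intro p hp
    have h1 : ‖em p.1 p.2‖ ≤ ‖z‖ + r := by
      have h2 : ‖em p.1 p.2 - z‖ ≤ r := hp
      calc ‖em p.1 p.2‖ = ‖z + (em p.1 p.2 - z)‖ := by congr 1; ring
        _ ≤ ‖z‖ + ‖em p.1 p.2 - z‖ := norm_add_le _ _
        _ ≤ _ := by linarith
    have h0 : 0 ≤ ‖z‖ + r := (norm_nonneg _).trans h1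
    have h3 : (p.1 : ℝ) ^ 2 - p.1 * p.2 + (p.2 : ℝ) ^ 2 ≤ (‖z‖ + r) ^ 2 := by
      rw [← norm_em_sq]; exact pow_le_pow_left₀ (norm_nonneg _) h1 2
    constructor
    · apply abs_le_of_sq_le_sq _ (by positivity)
      nlinarith [sq_nonneg ((p.1 : ℝ) - 2 * p.2)]
    · apply abs_le_of_sq_le_sq _ (by positivity)
      nlinarith [sq_nonneg (2 * (p.1 : ℝ) - p.2)]
  set M : ℤ := ⌈2 * (‖z‖ + r)⌉ with hM
  refine (Set.finite_Icc ((-M, -M) : ℤ × ℤ) (M, M)).subset ?_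
  intro p hp
  obtain ⟨h1, h2⟩ := hb p hp
  have hM' : 2 * (‖z‖ + r) ≤ (M : ℝ) := Int.le_ceil _
  rw [abs_le] at h1 h2
  have h3 : (-M : ℝ) ≤ p.1 := by linarith [h1.1]
  have h4 : (p.1 : ℝ) ≤ M := by linarith [h1.2]
  have h5 : (-M : ℝ) ≤ p.2 := by linarith [h2.1]
  have h6 : (p.2 : ℝ) ≤ M := by linarith [h2.2]
  exact ⟨⟨by exact_mod_cast h3, by exact_mod_cast h5⟩, ⟨by exact_mod_cast h4, by exact_mod_cast h6⟩⟩

/-- number of lattice points in a disc -/
noncomputable def cnt (z : ℂ) (r : ℝ) : ℕ := (pts_finite z r).toFinset.card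

lemma volume_cells (z : ℂ) (r : ℝ) :
    volume (⋃ p ∈ (pts_finite z r).toFinset, cell p) = cnt z r := by
  rw [measure_biUnion_finset (pairwise_disjoint_cell _) (fun p _ => measurableSet_cell p)]
  simp [volume_cell, cnt]

lemma cnt_le (z : ℂ) {r : ℝ} (hr : 0 ≤ r) :
    (cnt z r : ℝ) ≤ 2 * Real.pi * (r + 1) ^ 2 / √3 := by
  have h : volume (⋃ p ∈ (pts_finite z r).toFinset, cell p) ≤ volume (disc z (r + 1)) := by
    apply measure_mono
    intro x hx
    simp only [Set.Finite.mem_toFinset, Set.mem_iUnion, exists_prop] at hx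
    obtain ⟨p, hp, hx⟩ := hx
    have h1 := cell_dist hx
    have h2 : ‖em p.1 p.2 - z‖ ≤ r := hp
    show ‖em x.1 x.2 - z‖ ≤ r + 1
    calc ‖em x.1 x.2 - z‖ = ‖(em x.1 x.2 - em p.1 p.2) + (em p.1 p.2 - z)‖ := by congr 1; ring
      _ ≤ _ := norm_add_le _ _
      _ ≤ r + 1 := by linarith
  rw [volume_cells, volume_disc z (by linarith)] at h
  have h3 := ENNReal.toReal_mono ENNReal.ofReal_ne_top h
  rw [ENNReal.toReal_ofReal (by positivity)] at h3
  simpa using h3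

lemma le_cnt (z : ℂ) {r : ℝ} (hr : 1 ≤ r) :
    2 * Real.pi * (r - 1) ^ 2 / √3 ≤ (cnt z r : ℝ) := by
  have h : volume (disc z (r - 1)) ≤ volume (⋃ p ∈ (pts_finite z r).toFinset, cell p) := by
    apply measure_mono
    intro x hx
    simp only [Set.Finite.mem_toFinset, Set.mem_iUnion, exists_prop]
    have hx' : x ∈ cell (⌊x.1⌋, ⌊x.2⌋) := mem_cell_iff.2 ⟨rfl, rfl⟩
    refine ⟨(⌊x.1⌋, ⌊x.2⌋), ?_, hx'⟩
    have h1 := cell_dist hx'
    have h2 : ‖em x.1 x.2 - z‖ ≤ r - 1 := hx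
    show ‖em (⌊x.1⌋ : ℤ) (⌊x.2⌋ : ℤ) - z‖ ≤ r
    calc ‖em (⌊x.1⌋ : ℤ) (⌊x.2⌋ : ℤ) - z‖
        = ‖(em x.1 x.2 - z) - (em x.1 x.2 - em (⌊x.1⌋ : ℤ) (⌊x.2⌋ : ℤ))‖ := by congr 1; ring
      _ ≤ _ := norm_sub_le _ _
      _ ≤ r := by simp only at h1; linarith
  rw [volume_cells, volume_disc z (by linarith)] at h
  have h3 := ENNReal.toReal_mono (by simp) h
  rw [ENNReal.toReal_ofReal (by positivity)] at h3
  simpa using h3

/-- lattice points in a disc: main theorem -/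
theorem abs_cnt_sub_le (z : ℂ) {r : ℝ} (hr : 0 ≤ r) :
    |(cnt z r : ℝ) - 2 * Real.pi * r ^ 2 / √3| ≤ 8 * (r + 1) := by
  have h3 : (0 : ℝ) < √3 := by positivity
  have h3' : (√3 : ℝ) ^ 2 = 3 := Real.sq_sqrt (by norm_num)
  have h4 : (1.73 : ℝ) < √3 := by
    rw [Real.lt_sqrt (by norm_num)]; norm_num
  have hpi := Real.pi_lt_d2
  have hpi' := Real.pi_pos
  have hc : 2 * Real.pi / √3 ≤ 4 := by
    rw [div_le_iff₀ h3]; nlinarith
  have hc0 : 0 < 2 * Real.pi / √3 := by positivity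
  have h1 := cnt_le z hr
  have e : ∀ u : ℝ, 2 * Real.pi * u / √3 = 2 * Real.pi / √3 * u := fun u => by ring
  rw [e] at h1 ⊢
  set c := 2 * Real.pi / √3
  rw [abs_le]
  constructor
  · by_cases hr1 : 1 ≤ r
    · have h2 := le_cnt z hr1
      rw [e] at h2
      change c * (r - 1) ^ 2 ≤ _ at h2
      nlinarith
    · have : (0 : ℝ) ≤ cnt z r := by positivity
      push Not at hr1
      have : c * r ^ 2 ≤ 4 * 1 := by
        apply mul_le_mul hc _ (by positivity) (by norm_num)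
        nlinarith
      nlinarith
  · nlinarith

end Vale.Agent.P006.H570.Lat
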