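import Vale.Agent.P006.H570.Sys
import Vale.Agent.P006.H570.Lat
import Vale.Agent.P006.CR.Basic

/-!
# The system of primary Eisenstein integers
-/

namespace Vale.Agent.P006.H570

open Finset

lemma re_three : (3 : O).re = 3 := rfl

lemma im_three : (3 : O).im = 0 := rfl

lemma three_dvd_iff {z : O} : (3 : O) ∣ z ↔ (3 : ℤ) ∣ z.re ∧ (3 : ℤ) ∣ z.im := by
  constructor
  · rintro ⟨c, rfl⟩
    have h3 : (3 : O) = ((3 : ℤ) : O) := by norm_cast
    rw [h3]
    simp only [QuadraticAlgebra.re_mul, QuadraticAlgebra.im_mul, QuadraticAlgebra.re_intCast,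
      QuadraticAlgebra.im_intCast]
    constructor
    · exact ⟨c.re, by ring⟩
    · exact ⟨c.im, by ring⟩
  · rintro ⟨⟨a, ha⟩, ⟨b, hb⟩⟩
    refine ⟨⟨a, b⟩, ?_⟩
    ext
    · simp [ha, re_three, im_three]
    · simp [hb, re_three, im_three]

lemma toC_eq_em (z : O) : toC z = Lat.em z.re z.im := by
  apply Complex.ext
  · rw [toC_re]; rfl
  · rw [toC_im]; rfl

/-- the submonoid of primary elements -/
def primary : Submonoid O where
  carrier := {b | (3 : O) ∣ b - 1}
  one_mem' := by simp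
  mul_mem' := by
    intro a b ha hb
    have : a * b - 1 = a * (b - 1) + (a - 1) := by ring
    show (3 : O) ∣ a * b - 1
    rw [this]
    exact dvd_add (hb.mul_left a) ha

lemma mem_primary {b : O} : b ∈ primary ↔ (3 : O) ∣ b - 1 := Iff.rfl

lemma mem_primary_iff {b : O} : b ∈ primary ↔ (3 : ℤ) ∣ b.re - 1 ∧ (3 : ℤ) ∣ b.im := by
  rw [mem_primary, three_dvd_iff]; simp [QuadraticAlgebra.re_one, QuadraticAlgebra.im_one]

/-- the unit `ω` -/
def omU : Oˣ := ⟨om, om * om, by decide, by decide⟩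

lemma unit_cases (u : Oˣ) : u = 1 ∨ u = -1 ∨ u = omU ∨ u = -omU ∨ u = omU ^ 2 ∨ u = -omU ^ 2 := by
  have h := isUnit_iff_N.1 u.isUnit
  have h2 : (u : O).re * (u : O).re - (u : O).re * (u : O).im + (u : O).im * (u : O).im = 1 := by
    rw [← N_cast_int', h]; rfl
  set a := (u : O).re with ha
  set b := (u : O).im with hb
  have h3 : -1 ≤ a ∧ a ≤ 1 ∧ -1 ≤ b ∧ b ≤ 1 := by
    refine ⟨?_, ?_, ?_, ?_⟩ <;> by_contra hc <;>
      nlinarith [sq_nonneg (2 * a - b), sq_nonneg (a - 2 * b)]
  obtain ⟨h4, h5, h6, h7⟩ := h3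
  have key : ∀ v : Oˣ, (v : O).re = a → (v : O).im = b → u = v := by
    intro v h1 h2
    apply Units.ext
    exact QuadraticAlgebra.ext (by rw [h1]) (by rw [h2])
  have ha' : a = -1 ∨ a = 0 ∨ a = 1 := by omega
  have hb' : b = -1 ∨ b = 0 ∨ b = 1 := by omega
  rcases ha' with ha' | ha' | ha' <;> rcases hb' with hb' | hb' | hb' <;>
    rw [ha', hb'] at h2 key <;> norm_num at h2
  · -- (-1,-1) = ω²
    right; right; right; right; left
    exact key _ (by decide) (by decide)
  · right; left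
    exact key _ (by decide) (by decide)
  · right; right; right; left
    exact key _ (by decide) (by decide)
  · right; right; left
    exact key _ (by decide) (by decide)
  · left
    exact key _ (by decide) (by decide)
  · right; right; right; right; right
    exact key _ (by decide) (by decide)

lemma re_omU (z : O) : ((omU : O) * z).re = - z.im ∧ ((omU : O) * z).im = z.re - z.im := by
  constructor
  · simp [omU, om]
  · simp [omU, om]; ring

lemma re_omU2 (z : O) : ((omU ^ 2 : Oˣ) * z : O).re = z.im - z.re ∧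
    ((omU ^ 2 : Oˣ) * z : O).im = - z.re := by
  have h : ((omU ^ 2 : Oˣ) * z : O) = (omU : O) * ((omU : O) * z) := by
    push_cast; ring
  rw [h, (re_omU (omU * z)).1, (re_omU (omU * z)).2, (re_omU z).1, (re_omU z).2]
  constructor <;> ring

lemma unit_eq_one {u : Oˣ} {a : O} (ha : a ∈ primary) (hu : (u : O) * a ∈ primary) : u = 1 := by
  rw [mem_primary_iff] at ha hu
  rcases unit_cases u with rfl | rfl | rfl | rfl | rfl | rfl
  · rfl
  · exfalso
    simp only [Units.val_neg, Units.val_one, neg_mul, one_mul, QuadraticAlgebra.re_neg,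
      QuadraticAlgebra.im_neg] at hu
    omega
  · exfalso
    rw [(re_omU a).1, (re_omU a).2] at hu
    omega
  · exfalso
    rw [Units.val_neg, neg_mul, QuadraticAlgebra.re_neg, QuadraticAlgebra.im_neg,
      (re_omU a).1, (re_omU a).2] at hu
    omega
  · exfalso
    rw [(re_omU2 a).1, (re_omU2 a).2] at hu
    omega
  · exfalso
    rw [Units.val_neg, neg_mul, QuadraticAlgebra.re_neg, QuadraticAlgebra.im_neg,
      (re_omU2 a).1, (re_omU2 a).2] at hu
    omega

/-- an element not divisible by `1 - ω` has a primary associate -/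
lemma exists_unit_mul_primary {d : O} (hd : ¬ (3 : ℤ) ∣ d.re + d.im) :
    ∃ u : Oˣ, (u : O) * d ∈ primary := by
  simp only [mem_primary_iff]
  have h1 : d.re % 3 = 0 ∨ d.re % 3 = 1 ∨ d.re % 3 = 2 := by omega
  have h2 : d.im % 3 = 0 ∨ d.im % 3 = 1 ∨ d.im % 3 = 2 := by omega
  rcases h1 with h1 | h1 | h1 <;> rcases h2 with h2 | h2 | h2
  · omega
  · refine ⟨omU ^ 2, ?_⟩
    rw [(re_omU2 d).1, (re_omU2 d).2]; omega
  · refine ⟨-omU ^ 2, ?_⟩
    rw [Units.val_neg, neg_mul, QuadraticAlgebra.re_neg, QuadraticAlgebra.im_neg,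
      (re_omU2 d).1, (re_omU2 d).2]; omega
  · refine ⟨1, ?_⟩
    rw [Units.val_one, one_mul]; omega
  · refine ⟨-omU, ?_⟩
    rw [Units.val_neg, neg_mul, QuadraticAlgebra.re_neg, QuadraticAlgebra.im_neg,
      (re_omU d).1, (re_omU d).2]; omega
  · omega
  · refine ⟨-1, ?_⟩
    rw [Units.val_neg, Units.val_one, neg_mul, one_mul, QuadraticAlgebra.re_neg,
      QuadraticAlgebra.im_neg]; omega
  · omega
  · refine ⟨omU, ?_⟩
    rw [(re_omU d).1, (re_omU d).2]; omega

lemma N_mod_three (d : O) : (3 : ℤ) ∣ (N d : ℤ) - (d.re + d.im) ^ 2 := by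
  rw [N_cast_int']
  exact ⟨-(d.re * d.im), by ring⟩

lemma not_dvd_of_dvd_primary {a d : O} (ha : a ∈ primary) (hd : d ∣ a) :
    ¬ (3 : ℤ) ∣ d.re + d.im := by
  intro h
  have h1 : (3 : ℤ) ∣ (N d : ℤ) := by
    have h2 := N_mod_three d
    have h3 : (3 : ℤ) ∣ (d.re + d.im) ^ 2 := dvd_pow h two_ne_zero
    have := dvd_add h2 h3
    rwa [sub_add_cancel] at this
  have h2 : (3 : ℤ) ∣ (N a : ℤ) := h1.trans (by exact_mod_cast N_dvd_N hd)
  have h3 := N_mod_three a
  rw [mem_primary_iff] at ha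
  have h4 : (3 : ℤ) ∣ (a.re + a.im) ^ 2 := by
    have := dvd_sub h2 h3
    rwa [sub_sub_cancel] at this
  have h5 : (3 : ℤ) ∣ a.re + a.im := Int.prime_three.dvd_of_dvd_pow h4
  omega

lemma finite_norm_le (n : ℕ) : {a : O | N a ≤ n}.Finite := by
  have h : {a : O | N a ≤ n} = (fun a : O => (a.re, a.im)) ⁻¹' (Lat.pts 0 (√(n : ℝ))) := by
    ext a
    simp only [Set.mem_ofPred_eq, Set.mem_preimage, Lat.pts, sub_zero]
    rw [← toC_eq_em, norm_toC, Real.sqrt_le_sqrt_iff (by positivity)]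
    norm_cast
  rw [h]
  refine (Lat.pts_finite 0 _).preimage ?_
  intro a _ b _ hab
  simp only [Prod.mk.injEq] at hab
  exact QuadraticAlgebra.ext hab.1 hab.2

/-- The system of primary Eisenstein integers. -/
noncomputable def PO : PSys O where
  P := primary
  N := { toFun := N, map_zero' := N_zero, map_one' := N_one, map_mul' := N_mul }
  zero_notMem := by
    rw [mem_primary_iff]; simp [QuadraticAlgebra.re_zero]
  unit_eq := fun u a ha hu => unit_eq_one ha hu
  exists_unit := fun a ha d hd => exists_unit_mul_primary (not_dvd_of_dvd_primary ha hd)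
  N_prime := by
    intro p hp
    show 2 ≤ N p
    have h0 : N p ≠ 0 := by rw [Ne, N_eq_zero]; exact hp.ne_zero
    have h1 : N p ≠ 1 := fun h => hp.not_isUnit (isUnit_iff_N.2 h)
    omega
  finite := fun n => (finite_norm_le n).subset fun a ha => ha.2

@[simp] lemma PO_N (a : O) : PO.N a = N a := rfl

@[simp] lemma mem_PO {a : O} : a ∈ PO.P ↔ (3 : O) ∣ a - 1 := Iff.rfl

end Vale.Agent.P006.H570
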