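import Mathlib

/-!
# Elementary real analysis: Abel summation and comparison of logarithms
-/

namespace Vale.Agent.P006.H570

open Finset

/-- Abel summation on `Ioc m n`. -/
lemma abel_sum (a v : ℕ → ℂ) (m n : ℕ) (hmn : m ≤ n) :
    ∑ k ∈ Ioc m n, a k * v k = (∑ k ∈ Ioc m n, a k) * v n +
      ∑ j ∈ Ico (m + 1) n, (∑ k ∈ Ioc m j, a k) * (v j - v (j + 1)) := by
  induction n, hmn using Nat.le_induction with
  | base => simp
  | succ n hmn ih =>
    rw [← insert_Ioc_right_eq_Ioc_add_one hmn, sum_insert (by simp), sum_insert (by simp), ih]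
    rcases Nat.eq_or_lt_of_le hmn with h | h
    · subst h
      simp
    · have h1 : m + 1 ≤ n := h
      rw [← insert_Ico_right_eq_Ico_add_one h1, sum_insert (by simp)]
      ring

/-- the sequence `v` has variation plus sup at most `G` -/
def BV (v : ℕ → ℂ) (G : ℝ) : Prop := ∀ n, ‖v n‖ + ∑ j ∈ range n, ‖v j - v (j + 1)‖ ≤ G

lemma BV.nonneg {v : ℕ → ℂ} {G : ℝ} (h : BV v G) : 0 ≤ G := by
  have := h 0
  simp only [range_zero, sum_empty, add_zero] at this
  exact (norm_nonneg _).trans this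

lemma BV.norm_le {v : ℕ → ℂ} {G : ℝ} (h : BV v G) (n : ℕ) : ‖v n‖ ≤ G := by
  have := h n
  have h2 : 0 ≤ ∑ j ∈ range n, ‖v j - v (j + 1)‖ := sum_nonneg fun _ _ => norm_nonneg _
  linarith

lemma BV.var_le {v : ℕ → ℂ} {G : ℝ} (h : BV v G) (n : ℕ) :
    ∑ j ∈ range n, ‖v j - v (j + 1)‖ ≤ G := by
  have := h n
  linarith [norm_nonneg (v n)]

/-- Abel's inequality with weights of bounded variation -/
lemma abel_le (a v : ℕ → ℂ) {G E : ℝ} (hv : BV v G) {m n : ℕ}
    (hE : ∀ j, j ≤ n → ‖∑ k ∈ Ioc m j, a k‖ ≤ E) :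
    ‖∑ k ∈ Ioc m n, a k * v k‖ ≤ E * G := by
  have hE0 : 0 ≤ E := (norm_nonneg _).trans (hE 0 (Nat.zero_le _))
  rcases Nat.lt_or_ge n m with h | hmn
  · rw [Ioc_eq_empty (by omega)]
    simp only [sum_empty, norm_zero]
    exact mul_nonneg hE0 hv.nonneg
  rw [abel_sum a v m n hmn]
  calc _ ≤ ‖(∑ k ∈ Ioc m n, a k) * v n‖ +
        ‖∑ j ∈ Ico (m + 1) n, (∑ k ∈ Ioc m j, a k) * (v j - v (j + 1))‖ := norm_add_le _ _
    _ ≤ E * ‖v n‖ + ∑ j ∈ Ico (m + 1) n, E * ‖v j - v (j + 1)‖ := by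
        gcongr
        · rw [norm_mul]
          exact mul_le_mul_of_nonneg_right (hE n le_rfl) (norm_nonneg _)
        · refine (norm_sum_le _ _).trans (sum_le_sum fun j hj => ?_)
          rw [norm_mul]
          exact mul_le_mul_of_nonneg_right (hE j (by rw [mem_Ico] at hj; omega)) (norm_nonneg _)
    _ ≤ E * ‖v n‖ + ∑ j ∈ range n, E * ‖v j - v (j + 1)‖ := by
        gcongr
        intro j hj
        rw [mem_Ico] at hj
        rw [mem_range]; omega
    _ = E * (‖v n‖ + ∑ j ∈ range n, ‖v j - v (j + 1)‖) := by rw [mul_add, mul_sum]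
    _ ≤ E * G := mul_le_mul_of_nonneg_left (hv n) hE0

/-- product of a BV sequence and an antitone nonnegative real sequence -/
lemma BV.mul_antitone {v : ℕ → ℂ} {G U : ℝ} (hv : BV v G) {u : ℕ → ℝ} (hu : Antitone u)
    (hu0 : ∀ n, 0 ≤ u n) (hU : u 0 ≤ U) : BV (fun n => v n * (u n : ℂ)) (2 * G * U) := by
  intro n
  have hG := hv.nonneg
  have h1 : ∀ k, ∑ j ∈ range k, (u j - u (j + 1)) = u 0 - u k := fun k => by
    rw [sum_range_sub']
  have h2 : ∑ j ∈ range n, ‖v j * (u j : ℂ) - v (j + 1) * (u (j + 1) : ℂ)‖ ≤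
      G * (u 0 - u n) + U * ∑ j ∈ range n, ‖v j - v (j + 1)‖ := by
    rw [← h1 n, mul_sum, mul_sum, ← sum_add_distrib]
    refine sum_le_sum fun j _ => ?_
    have e : v j * (u j : ℂ) - v (j + 1) * (u (j + 1) : ℂ) =
        v j * ((u j - u (j + 1) : ℝ) : ℂ) + (v j - v (j + 1)) * (u (j + 1) : ℂ) := by
      push_cast; ring
    rw [e]
    refine (norm_add_le _ _).trans ?_
    rw [norm_mul, norm_mul, Complex.norm_real, Complex.norm_real,
      Real.norm_of_nonneg (sub_nonneg.2 (hu (Nat.le_succ j))), Real.norm_of_nonneg (hu0 _)]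
    apply add_le_add
    · exact mul_le_mul_of_nonneg_right (hv.norm_le j) (sub_nonneg.2 (hu (Nat.le_succ j)))
    · rw [mul_comm U]
      exact mul_le_mul_of_nonneg_left ((hu (Nat.zero_le _)).trans hU) (norm_nonneg _)
  have h3 : ‖v n * (u n : ℂ)‖ = ‖v n‖ * u n := by
    rw [norm_mul, Complex.norm_real, Real.norm_of_nonneg (hu0 _)]
  have h4 : ‖v n‖ * u n ≤ G * u n := mul_le_mul_of_nonneg_right (hv.norm_le n) (hu0 n)
  have h5 : U * ∑ j ∈ range n, ‖v j - v (j + 1)‖ ≤ U * G :=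
    mul_le_mul_of_nonneg_left (hv.var_le n) ((hu0 0).trans hU)
  have h6 : G * u 0 ≤ G * U := mul_le_mul_of_nonneg_left hU hG
  rw [h3]
  nlinarith

/-! ### logarithms -/

lemma log_pow_le_sqrt (A : ℕ) : ∃ c : ℝ, 0 < c ∧ ∀ x : ℝ, 1 ≤ x → Real.log x ^ A ≤ c * √x := by
  have he : (0 : ℝ) < 1 / (2 * (A + 1)) := by positivity
  refine ⟨(2 * (A + 1)) ^ A, by positivity, fun x hx => ?_⟩
  have h1 := Real.log_le_rpow_div (x := x) (by linarith) he
  have h2 : Real.log x ^ A ≤ (x ^ ((1 : ℝ) / (2 * (A + 1))) / (1 / (2 * (A + 1)))) ^ A :=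
    pow_le_pow_left₀ (Real.log_nonneg hx) h1 A
  refine h2.trans ?_
  rw [div_pow, ← Real.rpow_natCast, ← Real.rpow_mul (by linarith)]
  have h3 : x ^ ((1 : ℝ) / (2 * (A + 1)) * A) ≤ √x := by
    rw [Real.sqrt_eq_rpow]
    apply Real.rpow_le_rpow_of_exponent_le hx
    rw [div_mul_eq_mul_div, one_mul, div_le_div_iff₀ (by positivity) (by norm_num)]
    nlinarith
  have h4 : ((1 : ℝ) / (2 * (A + 1))) ^ A = 1 / (2 * (A + 1)) ^ A := by
    rw [div_pow, one_pow]
  rw [h4, div_div_eq_mul_div, div_one, mul_comm]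
  exact mul_le_mul_of_nonneg_left h3 (by positivity)

/-- `log (256 n (|t|+2)) ^ B ≤ c L` for `n, |t| ≤ L ^ C`. -/
lemma loglog_le (B C : ℕ) : ∃ c : ℝ, 0 < c ∧ ∀ L n t : ℝ, 1 ≤ L → 1 ≤ n → n ≤ L ^ C →
    |t| ≤ L ^ C → Real.log (256 * n * (|t| + 2)) ^ B ≤ c * L := by
  refine ⟨(7 + 2 * C * (B + 1)) ^ B, by positivity, fun L n t hL hn hnC htC => ?_⟩
  have hL0 : 0 < L := by linarith
  have hLC : 1 ≤ L ^ C := one_le_pow₀ hL
  have h1 : 256 * n * (|t| + 2) ≤ 768 * (L ^ C * L ^ C) := by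
    have h2 : |t| + 2 ≤ 3 * L ^ C := by linarith
    calc 256 * n * (|t| + 2) ≤ 256 * L ^ C * (3 * L ^ C) := by
          gcongr
      _ = _ := by ring
  have hpos : 0 < 256 * n * (|t| + 2) := by positivity
  have h3 : Real.log (256 * n * (|t| + 2)) ≤ 7 + 2 * C * Real.log L := by
    calc _ ≤ Real.log (768 * (L ^ C * L ^ C)) := Real.log_le_log hpos h1
      _ = Real.log 768 + 2 * C * Real.log L := by
          rw [Real.log_mul (by norm_num) (by positivity), Real.log_mul (by positivity)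
            (by positivity), Real.log_pow]
          ring
      _ ≤ _ := by
          have : Real.log 768 ≤ 7 := by
            rw [Real.log_le_iff_le_exp (by norm_num)]
            have := Real.exp_one_gt_d9
            calc (768 : ℝ) ≤ (2.7182818283) ^ 7 := by norm_num
              _ ≤ (Real.exp 1) ^ 7 := by gcongr
              _ = Real.exp 7 := by rw [← Real.exp_nat_mul]; norm_num
          linarith
  have h4 : Real.log L ≤ (B + 1) * L ^ ((1 : ℝ) / (B + 1)) := by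
    have := Real.log_le_rpow_div (x := L) hL0.le (ε := 1 / (B + 1)) (by positivity)
    rwa [div_div_eq_mul_div, div_one, mul_comm] at this
  have h5 : 1 ≤ L ^ ((1 : ℝ) / (B + 1)) := Real.one_le_rpow hL (by positivity)
  have h6 : Real.log (256 * n * (|t| + 2)) ≤ (7 + 2 * C * (B + 1)) * L ^ ((1 : ℝ) / (B + 1)) := by
    have : 2 * C * Real.log L ≤ 2 * C * ((B + 1) * L ^ ((1 : ℝ) / (B + 1))) :=
      mul_le_mul_of_nonneg_left h4 (by positivity)
    nlinarith
  have h0 : 0 ≤ Real.log (256 * n * (|t| + 2)) := by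
    apply Real.log_nonneg
    nlinarith [abs_nonneg t]
  calc Real.log (256 * n * (|t| + 2)) ^ B
      ≤ ((7 + 2 * C * (B + 1)) * L ^ ((1 : ℝ) / (B + 1))) ^ B := pow_le_pow_left₀ h0 h6 B
    _ = (7 + 2 * C * (B + 1)) ^ B * (L ^ ((1 : ℝ) / (B + 1))) ^ B := mul_pow _ _ _
    _ ≤ (7 + 2 * C * (B + 1)) ^ B * L := by
        gcongr
        rw [← Real.rpow_natCast, ← Real.rpow_mul hL0.le]
        calc L ^ (1 / ((B : ℝ) + 1) * B) ≤ L ^ (1 : ℝ) := by
              apply Real.rpow_le_rpow_of_exponent_le hL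
              rw [div_mul_eq_mul_div, one_mul, div_le_one (by positivity)]
              linarith
          _ = L := Real.rpow_one L

end Vale.Agent.P006.H570
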