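import Vale.Agent.P006.H570.Sys
import Vale.Agent.P006.SW.Defs

/-!
# Arithmetic functions attached to a completely multiplicative function on primary elements
-/

namespace Vale.Agent.P006.H570

open Finset

/-- completely multiplicative functions on the primary elements -/
structure PSys.Char {R : Type*} [CommRing R] [IsDomain R] (S : PSys R) where
  f : R → ℂ
  one : f 1 = 1
  mul : ∀ a ∈ S.P, ∀ b ∈ S.P, f (a * b) = f a * f b
  vals : ∀ a ∈ S.P, f a = 0 ∨ f a ^ 3 = 1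

namespace PSys

variable {R : Type*} [CommRing R] [IsDomain R] (S : PSys R)

/-- coefficient `∑_{N b = n} χ(b)` -/
noncomputable def co (f : R → ℂ) (n : ℕ) : ℂ := ∑ b ∈ S.sph n, f b

/-- coefficient `∑_{N b = n} Λ(b) χ(b)` -/
noncomputable def coL (f : R → ℂ) (n : ℕ) : ℂ := ∑ b ∈ S.sph n, (S.vM b : ℂ) * f b

lemma sph_zero [UniqueFactorizationMonoid R] : S.sph 0 = ∅ := by
  ext b
  simp only [S.mem_sph, notMem_empty, iff_false, not_and]
  intro hb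
  exact (S.N_pos' hb).ne'

lemma sph_one [UniqueFactorizationMonoid R] : S.sph 1 = {1} := by
  ext b
  simp only [S.mem_sph, mem_singleton]
  constructor
  · rintro ⟨hb, h1⟩
    by_contra hne
    have hnu : ¬ IsUnit b := fun hu => hne (S.isUnit_eq_one hb hu)
    obtain ⟨p, hp, hpb⟩ := WfDvdMonoid.exists_irreducible_factor hnu (S.ne_zero hb)
    have h2 := S.N_prime p (UniqueFactorizationMonoid.irreducible_iff_prime.1 hp)
    have h3 := Nat.le_of_dvd (S.N_pos' hb) (map_dvd S.N hpb)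
    omega
  · rintro rfl
    exact ⟨S.P.one_mem, map_one S.N⟩

theorem isLog [UniqueFactorizationMonoid R] {f : R → ℂ}
    (hmul : ∀ a ∈ S.P, ∀ b ∈ S.P, f (a * b) = f a * f b) :
    SW.IsLog (S.co f) (S.coL f) := by
  classical
  intro n hn
  have h1 : S.co f n * ((Real.log n : ℝ) : ℂ)
      = ∑ b ∈ S.sph n, ∑ d ∈ S.divs b, (S.vM d : ℂ) * f b := by
    rw [co, sum_mul]
    refine sum_congr rfl fun b hb => ?_
    rw [S.mem_sph] at hb
    rw [← sum_mul, ← Complex.ofReal_sum, S.sum_vM_divs hb.1, hb.2, mul_comm]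
  rw [h1]
  have h2 : ∑ p ∈ n.divisorsAntidiagonal, S.coL f p.1 * S.co f p.2
      = ∑ p ∈ n.divisorsAntidiagonal, ∑ q ∈ S.sph p.1 ×ˢ S.sph p.2,
        (S.vM q.1 : ℂ) * f (q.1 * q.2) := by
    refine sum_congr rfl fun p _ => ?_
    rw [coL, co, sum_mul_sum, sum_product]
    refine sum_congr rfl fun a ha => sum_congr rfl fun b hb => ?_
    rw [S.mem_sph] at ha hb
    rw [hmul a ha.1 b hb.1]; ring
  rw [h2, sum_sigma', sum_sigma']
  symm
  refine sum_bij' (fun x _ => ⟨x.2.1 * x.2.2, x.2.1⟩)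
    (fun y hy => ⟨(S.N y.2, S.N (Classical.epsilon fun e => y.1 = y.2 * e)),
      (y.2, Classical.epsilon fun e => y.1 = y.2 * e)⟩) ?_ ?_ ?_ ?_ ?_
  · rintro ⟨⟨m, k⟩, ⟨d, e⟩⟩ hx
    simp only [mem_sigma, Nat.mem_divisorsAntidiagonal, mem_product, S.mem_sph] at hx ⊢
    obtain ⟨⟨hmk, _⟩, ⟨hd, hdm⟩, ⟨he, hek⟩⟩ := hx
    have hde := S.P.mul_mem hd he
    refine ⟨⟨hde, by rw [map_mul, hdm, hek, hmk]⟩, ?_⟩
    rw [S.mem_divs hde]
    exact ⟨hd, Dvd.intro e rfl⟩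
  · rintro ⟨b, d⟩ hy
    simp only [mem_sigma, S.mem_sph] at hy
    obtain ⟨⟨hb, hbn⟩, hd⟩ := hy
    rw [S.mem_divs hb] at hd
    have he : b = d * Classical.epsilon fun e => b = d * e := Classical.epsilon_spec hd.2
    set e := Classical.epsilon fun e => b = d * e with hedef
    have heP : e ∈ S.P := S.mem_of_mul hd.1 (he ▸ hb)
    simp only [mem_sigma, Nat.mem_divisorsAntidiagonal, mem_product, S.mem_sph]
    refine ⟨⟨?_, hn⟩, ⟨hd.1, trivial⟩, ⟨heP, trivial⟩⟩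
    rw [← map_mul, ← he, hbn]
  · rintro ⟨⟨m, k⟩, ⟨d, e⟩⟩ hx
    simp only [mem_sigma, Nat.mem_divisorsAntidiagonal, mem_product, S.mem_sph] at hx
    obtain ⟨⟨hmk, _⟩, ⟨hd, hdm⟩, ⟨he, hek⟩⟩ := hx
    have h : (Classical.epsilon fun e' => d * e = d * e') = e := by
      have h3 : d * e = d * Classical.epsilon fun e' => d * e = d * e' :=
        Classical.epsilon_spec (p := fun e' => d * e = d * e') ⟨e, rfl⟩
      exact (mul_left_cancel₀ (S.ne_zero hd) h3).symm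
    simp only
    rw [h, hdm, hek]
  · rintro ⟨b, d⟩ hy
    simp only [mem_sigma, S.mem_sph] at hy
    obtain ⟨⟨hb, hbn⟩, hd⟩ := hy
    rw [S.mem_divs hb] at hd
    have he : b = d * Classical.epsilon fun e => b = d * e := Classical.epsilon_spec hd.2
    simp only
    rw [← he]
  · rintro ⟨⟨m, k⟩, ⟨d, e⟩⟩ hx
    rfl

/-- number of primary elements of norm `n` -/
noncomputable def a0 (n : ℕ) : ℝ := (S.sph n).card

/-- `∑_{N b = n} Λ(b)` -/
noncomputable def L0 (n : ℕ) : ℝ := ∑ b ∈ S.sph n, S.vM b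

lemma co_one : S.co (fun _ => 1) = fun n => ((S.a0 n : ℝ) : ℂ) := by
  ext n; simp [co, a0]

lemma coL_one : S.coL (fun _ => 1) = fun n => ((S.L0 n : ℝ) : ℂ) := by
  ext n; simp [coL, L0]

lemma norm_co_le {f : R → ℂ} (hf : ∀ a ∈ S.P, ‖f a‖ ≤ 1) (n : ℕ) : ‖S.co f n‖ ≤ S.a0 n := by
  rw [co, a0]
  calc ‖∑ b ∈ S.sph n, f b‖ ≤ ∑ b ∈ S.sph n, ‖f b‖ := norm_sum_le _ _
    _ ≤ ∑ b ∈ S.sph n, 1 := sum_le_sum fun b hb => hf b (S.mem_sph.1 hb).1
    _ = _ := by simp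

lemma norm_coL_le {f : R → ℂ} (hf : ∀ a ∈ S.P, ‖f a‖ ≤ 1) (n : ℕ) : ‖S.coL f n‖ ≤ S.L0 n := by
  rw [coL, L0]
  calc ‖∑ b ∈ S.sph n, (S.vM b : ℂ) * f b‖ ≤ ∑ b ∈ S.sph n, ‖(S.vM b : ℂ) * f b‖ :=
        norm_sum_le _ _
    _ ≤ ∑ b ∈ S.sph n, S.vM b := by
        refine sum_le_sum fun b hb => ?_
        rw [norm_mul, Complex.norm_real, Real.norm_of_nonneg (S.vM_nonneg b)]
        exact mul_le_of_le_one_right (S.vM_nonneg b) (hf b (S.mem_sph.1 hb).1)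

namespace Char

variable {S} (χ : S.Char)

lemma norm_le {a : R} (ha : a ∈ S.P) : ‖χ.f a‖ ≤ 1 := by
  rcases χ.vals a ha with h | h
  · rw [h]; simp
  · have h2 : ‖χ.f a‖ ^ 3 = 1 := by rw [← norm_pow, h, norm_one]
    exact le_of_eq ((pow_eq_one_iff_of_nonneg (norm_nonneg _) (by norm_num)).1 h2)

/-- the square (= conjugate) of a cubic character -/
def sq : S.Char where
  f := fun a => χ.f a ^ 2
  one := by simp [χ.one]
  mul := fun a ha b hb => by rw [χ.mul a ha b hb]; ring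
  vals := fun a ha => by
    rcases χ.vals a ha with h | h
    · left; simp [h]
    · right; rw [← pow_mul, mul_comm, pow_mul, h, one_pow]

end Char

lemma three_four_one {z : ℂ} (hz : z = 0 ∨ ‖z‖ = 1) : 0 ≤ 3 + 4 * z.re + (z ^ 2).re := by
  rcases hz with h | h
  · simp [h]
  · have h1 : z.re ^ 2 + z.im ^ 2 = 1 := by
      have := Complex.sq_norm z
      rw [h, Complex.normSq_apply] at this
      nlinarith
    have h2 : (z ^ 2).re = z.re ^ 2 - z.im ^ 2 := by rw [sq]; simp [Complex.mul_re]; ring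
    rw [h2]
    nlinarith [sq_nonneg (z.re + 1)]

theorem tfo (χ : S.Char) (n : ℕ) (t : ℝ) (hn : n ≠ 0) :
    0 ≤ 3 * S.L0 n + 4 * (S.coL χ.f n * (n : ℂ) ^ (-((t : ℂ) * Complex.I))).re +
      (S.coL χ.sq.f n * (n : ℂ) ^ (-(((2 * t : ℝ) : ℂ) * Complex.I))).re := by
  have hn0 : (0 : ℝ) < n := by positivity
  set w : ℂ := (n : ℂ) ^ (-((t : ℂ) * Complex.I)) with hw
  have hw2 : (n : ℂ) ^ (-(((2 * t : ℝ) : ℂ) * Complex.I)) = w ^ 2 := by
    rw [hw, ← Complex.cpow_nat_mul]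
    congr 1
    push_cast; ring
  have hwn : ‖w‖ = 1 := by
    rw [hw, Complex.norm_natCast_cpow_of_pos (by omega)]
    simp
  rw [hw2, coL, coL, L0, sum_mul, sum_mul, Complex.re_sum, Complex.re_sum, mul_sum, mul_sum,
    ← sum_add_distrib, ← sum_add_distrib]
  refine sum_nonneg fun b hb => ?_
  have hb' := (S.mem_sph.1 hb).1
  have h1 : (((S.vM b : ℝ) : ℂ) * χ.f b * w).re = S.vM b * (χ.f b * w).re := by
    rw [mul_assoc, Complex.re_ofReal_mul]
  have h2 : (((S.vM b : ℝ) : ℂ) * χ.sq.f b * w ^ 2).re = S.vM b * ((χ.f b * w) ^ 2).re := by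
    rw [mul_assoc, Complex.re_ofReal_mul, Char.sq, mul_pow]
  rw [h1, h2]
  have h3 : χ.f b * w = 0 ∨ ‖χ.f b * w‖ = 1 := by
    rcases χ.vals b hb' with h | h
    · left; rw [h, zero_mul]
    · right
      rw [norm_mul, hwn, mul_one]
      have h2 : ‖χ.f b‖ ^ 3 = 1 := by rw [← norm_pow, h, norm_one]
      exact (pow_eq_one_iff_of_nonneg (norm_nonneg _) (by norm_num)).1 h2
  have h4 := three_four_one h3
  have h5 := mul_nonneg (S.vM_nonneg b) h4
  linarith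

/-- `SWData` from counting hypotheses -/
theorem swData [UniqueFactorizationMonoid R] (χ : S.Char) {C0 Q : ℝ} (hC0 : 1 ≤ C0) (hQ : 3 ≤ Q)
    (count : ∀ x : ℝ, 1 ≤ x → ∑ n ∈ Icc 1 ⌊x⌋₊, S.a0 n ≤ C0 * x)
    (short : ∀ x h : ℝ, 1 ≤ x → 0 ≤ h → h ≤ x →
      ∑ n ∈ Ioc ⌊x⌋₊ ⌊x + h⌋₊, S.a0 n ≤ C0 * (h + √x))
    (psum : ∀ x : ℝ, 1 ≤ x → ‖∑ n ∈ Icc 1 ⌊x⌋₊, S.co χ.f n‖ ≤ Q * √x)
    (psum2 : ∀ x : ℝ, 1 ≤ x → ‖∑ n ∈ Icc 1 ⌊x⌋₊, S.co χ.sq.f n‖ ≤ Q * √x) :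
    SW.SWData S.a0 S.L0 (S.co χ.f) (S.coL χ.f) (S.co χ.sq.f) (S.coL χ.sq.f) C0 Q where
  a0_nonneg := fun n => by rw [a0]; positivity
  L0_nonneg := fun n => sum_nonneg fun b _ => S.vM_nonneg b
  a0_one := by rw [a0, S.sph_one]; simp
  a_one := by rw [co, S.sph_one]; simp [χ.one]
  a2_one := by rw [co, S.sph_one]; simp [χ.sq.one]
  log0 := by
    have := S.isLog (f := fun _ => 1) (by intros; simp)
    rw [co_one, coL_one] at this
    exact this
  log1 := S.isLog χ.mul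
  log2 := S.isLog χ.sq.mul
  a_le := S.norm_co_le fun _ => χ.norm_le
  a2_le := S.norm_co_le fun _ => χ.sq.norm_le
  L_le := S.norm_coL_le fun _ => χ.norm_le
  L2_le := S.norm_coL_le fun _ => χ.sq.norm_le
  count := count
  short := short
  psum := psum
  psum2 := psum2
  tfo := S.tfo χ
  C0_ge := hC0
  Q_ge := hQ

end PSys

end Vale.Agent.P006.H570
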