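import Vale.Agent.P006.H570.SWInst
import Vale.Agent.P006.H570.Abel

/-!
# Siegel–Walfisz for periodic cubic characters on primary Eisenstein integers: final forms
-/

namespace Vale.Agent.P006.H570

open Finset

/-- `N(b)^{-it}` -/
noncomputable def nit (t : ℝ) (b : O) : ℂ := ((N b : ℕ) : ℂ) ^ (-((t : ℂ) * Complex.I))

lemma norm_nit {t : ℝ} {b : O} (hb : b ≠ 0) : ‖nit t b‖ = 1 := by
  rw [nit, Complex.norm_natCast_cpow_of_pos (N_pos hb)]
  simp

lemma norm_nit_le {t : ℝ} {b : O} (hb : b ∈ PO.P) : ‖nit t b‖ ≤ 1 :=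
  (norm_nit (PO.ne_zero hb)).le

lemma nit_mul (t : ℝ) {a b : O} (_ha : a ≠ 0) (_hb : b ≠ 0) :
    nit t (a * b) = nit t a * nit t b := by
  rw [nit, nit, nit, N_mul, Nat.cast_mul, Complex.natCast_mul_natCast_cpow]

/-- the twisted `Λ`-sum -/
noncomputable def psiS (χ : PO.Char) (t y : ℝ) : ℂ :=
  ∑ b ∈ PO.ball ⌊y⌋₊, (PO.vM b : ℂ) * χ.f b * nit t b

lemma psiS_eq (χ : PO.Char) (t y : ℝ) :
    ∑ n ∈ Icc 1 ⌊y⌋₊, PO.coL χ.f n * (n : ℂ) ^ (-((t : ℂ) * Complex.I)) = psiS χ t y := by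
  rw [psiS, ← PO.sum_sph_one]
  refine sum_congr rfl fun n _ => ?_
  rw [PSys.coL, sum_mul]
  refine sum_congr rfl fun b hb => ?_
  rw [PO.mem_sph, PO_N] at hb
  rw [nit, hb.2]

lemma vM_le {b : O} (hb : b ∈ PO.P) : PO.vM b ≤ Real.log (N b) := by
  have h := PO.sum_vM_divs hb
  rw [PO_N] at h
  rw [← h]
  exact single_le_sum (f := PO.vM) (fun d _ => PO.vM_nonneg d)
    ((PO.mem_divs hb).2 ⟨hb, dvd_rfl⟩)

lemma vM_le' {b : O} (hb : b ∈ PO.P) {y : ℝ} (h : (N b : ℝ) ≤ y) : PO.vM b ≤ Real.log y :=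
  (vM_le hb).trans (Real.log_le_log (by exact_mod_cast N_pos (PO.ne_zero hb)) h)

lemma card_ball_le {y : ℝ} (hy : 1 ≤ y) : ((PO.ball ⌊y⌋₊).card : ℝ) ≤ 16 * y := by
  have h := count_PO hy
  have h1 : ∑ n ∈ Icc 1 ⌊y⌋₊, PO.a0 n = ((PO.ball ⌊y⌋₊).card : ℝ) := by
    have := PO.sum_sph_one (fun _ => (1 : ℝ)) ⌊y⌋₊
    simpa [PSys.a0] using this
  rwa [h1] at h

lemma ball_empty {y : ℝ} (hy : y < 1) : PO.ball ⌊y⌋₊ = ∅ := by
  have : ⌊y⌋₊ = 0 := Nat.floor_eq_zero.2 hy
  rw [this]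
  ext b
  simp only [PO.mem_ball, notMem_empty, iff_false, not_and, not_le]
  intro hb
  exact PO.N_pos' hb

lemma mem_ball_real {y : ℝ} {b : O} (hy : 0 ≤ y) :
    b ∈ PO.ball ⌊y⌋₊ ↔ b ∈ PO.P ∧ (N b : ℝ) ≤ y := by
  rw [PO.mem_ball, PO_N, Nat.le_floor_iff hy]

lemma sum_vM_ball_le {y : ℝ} (hy : 1 ≤ y) : ∑ b ∈ PO.ball ⌊y⌋₊, PO.vM b ≤ 16 * y * Real.log y := by
  calc ∑ b ∈ PO.ball ⌊y⌋₊, PO.vM b ≤ ∑ b ∈ PO.ball ⌊y⌋₊, Real.log y := by
        refine sum_le_sum fun b hb => ?_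
        rw [mem_ball_real (by linarith)] at hb
        exact vM_le' hb.1 hb.2
    _ = (PO.ball ⌊y⌋₊).card * Real.log y := by rw [sum_const, nsmul_eq_mul]
    _ ≤ _ := mul_le_mul_of_nonneg_right (card_ball_le hy) (Real.log_nonneg hy)

lemma norm_psiS_le (χ : PO.Char) (t : ℝ) {y : ℝ} (hy : 1 ≤ y) :
    ‖psiS χ t y‖ ≤ 16 * y * Real.log y := by
  refine (norm_sum_le _ _).trans ((sum_le_sum fun b hb => ?_).trans (sum_vM_ball_le hy))
  rw [mem_ball_real (by linarith)] at hb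
  rw [norm_mul, norm_mul, Complex.norm_real, Real.norm_of_nonneg (PO.vM_nonneg b)]
  have h1 := χ.norm_le hb.1
  have h2 := norm_nit_le (t := t) hb.1
  calc PO.vM b * ‖χ.f b‖ * ‖nit t b‖ ≤ PO.vM b * 1 * 1 := by
        gcongr
        · exact mul_nonneg (PO.vM_nonneg b) zero_le_one
        · exact PO.vM_nonneg b
    _ = _ := by ring

lemma one_lt_log {X : ℝ} (hX : 3 ≤ X) : 1 < Real.log X := by
  rw [Real.lt_log_iff_exp_lt (by linarith)]
  have := Real.exp_one_lt_d9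
  linarith

/-- **Siegel–Walfisz, `Λ`-form, uniform in `y ≤ X`.** -/
theorem psiS_bound (hSW : SW.SWCoreStatement) (A C : ℕ) : ∃ c0 : ℝ, 0 < c0 ∧
    ∀ (χ : PO.Char) (M : O), IsPer χ M → ∀ X t : ℝ, 3 ≤ X → (N M : ℝ) ≤ (Real.log X) ^ C →
      |t| ≤ (Real.log X) ^ C → ∀ y, y ≤ X → ‖psiS χ t y‖ ≤ c0 * X / (Real.log X) ^ A := by
  obtain ⟨K, B, hK, hcore⟩ := hSW (A + 1) 64
  obtain ⟨c1, hc1, hlog⟩ := loglog_le B C
  obtain ⟨c2, hc2, hsq⟩ := log_pow_le_sqrt (A + 1)
  refine ⟨K * 2 ^ (A + 1) * c1 + 32 * c2, by positivity, ?_⟩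
  intro χ M hM X t hX hN ht y hyX
  have hX0 : 0 < X := by linarith
  have hL := one_lt_log hX
  have hL0 : 0 < Real.log X := by linarith
  have hsX : 0 < √X := Real.sqrt_pos.2 hX0
  have hsX1 : 1 ≤ √X := Real.one_le_sqrt.2 (by linarith)
  have hsXX : √X * √X = X := Real.mul_self_sqrt hX0.le
  rw [le_div_iff₀ (by positivity)]
  rcases lt_or_ge y 1 with hy1 | hy1
  · rw [psiS, ball_empty hy1]
    simp only [sum_empty, norm_zero, zero_mul]; positivity
  rcases le_or_gt y (2 * √X) with hy | hy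
  · have h1 := norm_psiS_le χ t hy1
    have h2 : Real.log y ≤ Real.log X := Real.log_le_log (by linarith) hyX
    have h3 : ‖psiS χ t y‖ ≤ 32 * √X * Real.log X := by
      calc _ ≤ 16 * y * Real.log y := h1
        _ ≤ 16 * (2 * √X) * Real.log X := by
            gcongr
            exact Real.log_nonneg hy1
        _ = _ := by ring
    calc ‖psiS χ t y‖ * Real.log X ^ A ≤ 32 * √X * Real.log X * Real.log X ^ A := by gcongr
      _ = 32 * √X * Real.log X ^ (A + 1) := by ring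
      _ ≤ 32 * √X * (c2 * √X) := by
          gcongr
          exact hsq X (by linarith)
      _ = 32 * c2 * (√X * √X) := by ring
      _ = 32 * c2 * X := by rw [hsXX]
      _ ≤ _ := by
          rw [add_mul]
          have : 0 ≤ K * 2 ^ (A + 1) * c1 * X := by positivity
          linarith
  · have h2y : 2 ≤ y := by linarith
    have h1 := hcore _ _ _ _ _ _ _ (swData_PO hM) y t h2y
    rw [psiS_eq] at h1
    have hly : Real.log X / 2 ≤ Real.log y := by
      have h3 : Real.log (√X) = Real.log X / 2 := by rw [Real.log_sqrt hX0.le]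
      rw [← h3]
      exact Real.log_le_log hsX (by linarith)
    have hly0 : 0 < Real.log y := by linarith
    have h4 : Real.log y ^ (-((A + 1 : ℕ) : ℝ)) ≤ 2 ^ (A + 1) / Real.log X ^ (A + 1) := by
      rw [Real.rpow_neg hly0.le, Real.rpow_natCast]
      rw [← one_div, div_le_div_iff₀ (by positivity) (by positivity), one_mul, ← mul_pow]
      exact pow_le_pow_left₀ hL0.le (by linarith) _
    have h5 := hlog (Real.log X) (N M) t hL.le (by exact_mod_cast N_pos hM.ne) hN ht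
    have hB0 : 0 ≤ Real.log (256 * (N M : ℝ) * (|t| + 2)) ^ B := by
      apply pow_nonneg
      apply Real.log_nonneg
      have h6 : (1 : ℝ) ≤ N M := by exact_mod_cast N_pos hM.ne
      nlinarith [abs_nonneg t]
    calc ‖psiS χ t y‖ * Real.log X ^ A
        ≤ (K * y * Real.log y ^ (-((A + 1 : ℕ) : ℝ)) *
            Real.log (256 * (N M : ℝ) * (|t| + 2)) ^ B) * Real.log X ^ A := by gcongr
      _ ≤ (K * X * (2 ^ (A + 1) / Real.log X ^ (A + 1)) * (c1 * Real.log X)) *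
            Real.log X ^ A := by gcongr
      _ = K * 2 ^ (A + 1) * c1 * X := by
          field_simp
          ring
      _ ≤ _ := by
          rw [add_mul]
          have : 0 ≤ 32 * c2 * X := by positivity
          linarith

/-! ### primes -/

open Classical in
/-- primary primes of norm at most `y` -/
noncomputable def prm (y : ℝ) : Finset O := (PO.ball ⌊y⌋₊).filter Prime

lemma mem_prm {y : ℝ} (hy : 0 ≤ y) {p : O} : p ∈ prm y ↔ p ∈ PO.P ∧ (N p : ℝ) ≤ y ∧ Prime p := by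
  classical
  rw [prm, mem_filter, mem_ball_real hy, and_assoc]

lemma two_le_N {p : O} (hp' : Prime p) : 2 ≤ N p := PO.N_prime p hp'

open Classical in
/-- prime powers of exponent `≥ 2` are negligible -/
lemma sum_vM_notPrime_le {y : ℝ} (hy : 1 ≤ y) :
    ∑ b ∈ (PO.ball ⌊y⌋₊).filter (fun b => ¬ Prime b), PO.vM b ≤
      16 * √y * (2 * Real.log y + 1) * Real.log y := by
  have hy0 : 0 ≤ y := by linarith
  have hly : 0 ≤ Real.log y := Real.log_nonneg hy
  have hsy : 1 ≤ √y := Real.one_le_sqrt.2 hy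
  set T := ((PO.ball ⌊y⌋₊).filter (fun b => ¬ Prime b)).filter (fun b => PO.vM b ≠ 0) with hT
  have h1 : ∑ b ∈ (PO.ball ⌊y⌋₊).filter (fun b => ¬ Prime b), PO.vM b = ∑ b ∈ T, PO.vM b := by
    rw [hT, sum_filter_ne_zero]
  have hspec : ∀ b ∈ T, ∃ q : O × ℕ, b = q.1 ^ q.2 ∧ q.1 ∈ PO.ball ⌊√y⌋₊ ∧
      q.2 < ⌊2 * Real.log y⌋₊ + 1 := by
    intro b hb
    rw [hT, mem_filter, mem_filter, mem_ball_real hy0] at hb
    obtain ⟨⟨⟨hbP, hby⟩, hnp⟩, hv⟩ := hb
    rw [PSys.vM] at hv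
    split_ifs at hv with h
    · obtain ⟨p, hp, hp', k, hk, rfl⟩ := h
      have hk2 : 2 ≤ k := by
        rcases Nat.lt_or_ge k 2 with h2 | h2
        · have : k = 1 := by omega
          subst this
          rw [pow_one] at hnp
          exact absurd hp' hnp
        · exact h2
      have hN2 : (2 : ℝ) ≤ N p := by exact_mod_cast two_le_N hp'
      rw [N_pow, Nat.cast_pow] at hby
      refine ⟨(p, k), rfl, ?_, ?_⟩
      · rw [mem_ball_real (Real.sqrt_nonneg y)]
        refine ⟨hp, ?_⟩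
        apply Real.le_sqrt_of_sq_le
        calc (N p : ℝ) ^ 2 ≤ (N p : ℝ) ^ k := pow_le_pow_right₀ (by linarith) hk2
          _ ≤ y := hby
      · rw [Nat.lt_succ_iff, Nat.le_floor_iff (by positivity)]
        have h2 : (2 : ℝ) ^ k ≤ y := (pow_le_pow_left₀ (by norm_num) hN2 k).trans hby
        have h3 := Real.log_le_log (by positivity) h2
        rw [Real.log_pow] at h3
        have h4 : (1 / 2 : ℝ) ≤ Real.log 2 := by
          have := Real.log_two_gt_d9
          linarith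
        have h5 : (k : ℝ) * (1 / 2) ≤ k * Real.log 2 := by gcongr
        linarith
    · exact absurd rfl hv
  have hcard : (T.card : ℝ) ≤ 16 * √y * (2 * Real.log y + 1) := by
    have h2 : T ⊆ ((PO.ball ⌊√y⌋₊) ×ˢ (range (⌊2 * Real.log y⌋₊ + 1))).image
        (fun q => q.1 ^ q.2) := by
      intro b hb
      obtain ⟨q, hq, h3, h4⟩ := hspec b hb
      rw [mem_image]
      exact ⟨q, by rw [mem_product, mem_range]; exact ⟨h3, h4⟩, hq.symm⟩
    have h3 := (card_le_card h2).trans card_image_le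
    rw [card_product, card_range] at h3
    calc (T.card : ℝ) ≤ ((PO.ball ⌊√y⌋₊).card * (⌊2 * Real.log y⌋₊ + 1) : ℕ) := by
          exact_mod_cast h3
      _ = (PO.ball ⌊√y⌋₊).card * (⌊2 * Real.log y⌋₊ + 1 : ℝ) := by push_cast; ring
      _ ≤ (16 * √y) * (2 * Real.log y + 1) := by
          gcongr
          · exact card_ball_le hsy
          · exact Nat.floor_le (by positivity)
  rw [h1]
  calc ∑ b ∈ T, PO.vM b ≤ ∑ b ∈ T, Real.log y := by
        refine sum_le_sum fun b hb => ?_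
        rw [hT, mem_filter, mem_filter, mem_ball_real hy0] at hb
        exact vM_le' hb.1.1.1 hb.1.1.2
    _ = T.card * Real.log y := by rw [sum_const, nsmul_eq_mul]
    _ ≤ _ := mul_le_mul_of_nonneg_right hcard hly

/-- the twisted sum over primes with logarithmic weight -/
noncomputable def thS (χ : PO.Char) (t y : ℝ) : ℂ :=
  ∑ p ∈ prm y, (Real.log (N p) : ℂ) * χ.f p * nit t p

lemma vM_prime {p : O} (hp : p ∈ PO.P) (hp' : Prime p) : PO.vM p = Real.log (N p) := by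
  have := PO.vM_pow hp hp' (k := 1) le_rfl
  rwa [pow_one] at this

lemma norm_psiS_sub_thS_le (χ : PO.Char) (t : ℝ) {y : ℝ} (hy : 1 ≤ y) :
    ‖psiS χ t y - thS χ t y‖ ≤ 16 * √y * (2 * Real.log y + 1) * Real.log y := by
  classical
  have hy0 : 0 ≤ y := by linarith
  have h1 : psiS χ t y - thS χ t y =
      ∑ b ∈ (PO.ball ⌊y⌋₊).filter (fun b => ¬ Prime b), (PO.vM b : ℂ) * χ.f b * nit t b := by
    rw [psiS, ← sum_filter_add_sum_filter_not (PO.ball ⌊y⌋₊) Prime]
    have h2 : ∑ b ∈ (PO.ball ⌊y⌋₊).filter Prime, (PO.vM b : ℂ) * χ.f b * nit t b =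
        thS χ t y := by
      rw [thS, prm]
      refine sum_congr rfl fun p hp => ?_
      rw [mem_filter, mem_ball_real hy0] at hp
      rw [vM_prime hp.1.1 hp.2]
    rw [h2]; ring
  rw [h1]
  refine (norm_sum_le _ _).trans ((sum_le_sum fun b hb => ?_).trans (sum_vM_notPrime_le hy))
  rw [mem_filter, mem_ball_real hy0] at hb
  rw [norm_mul, norm_mul, Complex.norm_real, Real.norm_of_nonneg (PO.vM_nonneg b)]
  have h1 := χ.norm_le hb.1.1
  have h2 := norm_nit_le (t := t) hb.1.1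
  calc PO.vM b * ‖χ.f b‖ * ‖nit t b‖ ≤ PO.vM b * 1 * 1 := by
        gcongr
        · exact mul_nonneg (PO.vM_nonneg b) zero_le_one
        · exact PO.vM_nonneg b
    _ = _ := by ring

/-- **Siegel–Walfisz for primes with logarithmic weight.** -/
theorem thS_bound (hSW : SW.SWCoreStatement) (A C : ℕ) : ∃ c0 : ℝ, 0 < c0 ∧
    ∀ (χ : PO.Char) (M : O), IsPer χ M → ∀ X t : ℝ, 3 ≤ X → (N M : ℝ) ≤ (Real.log X) ^ C →
      |t| ≤ (Real.log X) ^ C → ∀ y, y ≤ X → ‖thS χ t y‖ ≤ c0 * X / (Real.log X) ^ A := by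
  obtain ⟨c1, hc1, h1⟩ := psiS_bound hSW A C
  obtain ⟨c2, hc2, h2⟩ := log_pow_le_sqrt (A + 2)
  refine ⟨c1 + 48 * c2, by positivity, ?_⟩
  intro χ M hM X t hX hN ht y hyX
  have hX0 : 0 < X := by linarith
  have hL := one_lt_log hX
  have hL0 : 0 < Real.log X := by linarith
  have hsXX : √X * √X = X := Real.mul_self_sqrt hX0.le
  rcases lt_or_ge y 1 with hy1 | hy1
  · rw [thS, prm, ball_empty hy1]
    simp only [filter_empty, sum_empty, norm_zero]; positivity
  have h3 := h1 χ M hM X t hX hN ht y hyX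
  have h4 := norm_psiS_sub_thS_le χ t hy1
  have h5 : 16 * √y * (2 * Real.log y + 1) * Real.log y ≤ 48 * c2 * X / Real.log X ^ A := by
    have hly : Real.log y ≤ Real.log X := Real.log_le_log (by linarith) hyX
    have hly0 : 0 ≤ Real.log y := Real.log_nonneg hy1
    rw [le_div_iff₀ (by positivity)]
    calc 16 * √y * (2 * Real.log y + 1) * Real.log y * Real.log X ^ A
        ≤ 16 * √X * (2 * Real.log X + Real.log X) * Real.log X * Real.log X ^ A := by
          gcongr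
      _ = 48 * √X * Real.log X ^ (A + 2) := by ring
      _ ≤ 48 * √X * (c2 * √X) := by
          gcongr
          exact h2 X (by linarith)
      _ = 48 * c2 * (√X * √X) := by ring
      _ = 48 * c2 * X := by rw [hsXX]
  have h6 : ‖thS χ t y‖ ≤ ‖psiS χ t y‖ + ‖psiS χ t y - thS χ t y‖ := by
    have : thS χ t y = psiS χ t y - (psiS χ t y - thS χ t y) := by ring
    calc ‖thS χ t y‖ = ‖psiS χ t y - (psiS χ t y - thS χ t y)‖ := by rw [← this]
      _ ≤ _ := norm_sub_le _ _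
  calc ‖thS χ t y‖ ≤ c1 * X / Real.log X ^ A + 48 * c2 * X / Real.log X ^ A := by linarith
    _ = _ := by ring

end Vale.Agent.P006.H570
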