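import Vale.Agent.P006.H570.Final

/-!
# Siegel–Walfisz for sums over primes with weights of bounded variation
-/

namespace Vale.Agent.P006.H570

open Finset

open Classical in
/-- summand of `thS` extended by zero -/
noncomputable def gth (χ : PO.Char) (t : ℝ) (b : O) : ℂ :=
  if Prime b then (Real.log (N b) : ℂ) * χ.f b * nit t b else 0

lemma thS_eq (χ : PO.Char) (t y : ℝ) : thS χ t y = ∑ b ∈ PO.ball ⌊y⌋₊, gth χ t b := by
  rw [thS, prm, sum_filter]; rfl

lemma thS_sub (χ : PO.Char) (t : ℝ) {m n : ℕ} (hmn : m ≤ n) :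
    ∑ k ∈ Ioc m n, ∑ b ∈ PO.sph k, gth χ t b = thS χ t n - thS χ t m := by
  classical
  rw [PO.sum_sph, thS_eq, thS_eq, Nat.floor_natCast, Nat.floor_natCast, eq_sub_iff_add_eq,
    ← sum_filter_add_sum_filter_not (PO.ball n) (fun b => m < PO.N b)]
  congr 1
  refine sum_congr ?_ fun _ _ => rfl
  ext b
  simp only [mem_filter, PO.mem_ball, not_lt]
  constructor
  · rintro ⟨h1, h2⟩; exact ⟨⟨h1, h2.trans hmn⟩, h2⟩
  · rintro ⟨⟨h1, _⟩, h2⟩; exact ⟨h1, h2⟩

/-- the weight `1 / log (max n 2)` -/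
noncomputable def ulog (n : ℕ) : ℝ := 1 / Real.log (max n 2 : ℕ)

lemma ulog_antitone : Antitone ulog := by
  intro m n hmn
  have h1 : (1 : ℝ) < (max m 2 : ℕ) := by
    have : 2 ≤ max m 2 := le_max_right _ _
    exact_mod_cast this
  have h2 : ((max m 2 : ℕ) : ℝ) ≤ (max n 2 : ℕ) := by
    exact_mod_cast max_le_max hmn le_rfl
  exact one_div_le_one_div_of_le (Real.log_pos h1) (Real.log_le_log (by linarith) h2)

lemma ulog_nonneg (n : ℕ) : 0 ≤ ulog n := by
  have h1 : (1 : ℝ) ≤ (max n 2 : ℕ) := by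
    have : 1 ≤ max n 2 := (by norm_num : 1 ≤ 2).trans (le_max_right _ _)
    exact_mod_cast this
  exact one_div_nonneg.2 (Real.log_nonneg h1)

lemma ulog_zero : ulog 0 ≤ 2 := by
  have h : (0.5 : ℝ) < Real.log 2 := by
    have := Real.log_two_gt_d9
    linarith
  rw [ulog]
  simp only [Nat.zero_le, sup_of_le_right, Nat.cast_ofNat]
  rw [div_le_iff₀ (by linarith)]
  linarith

lemma log_mul_ulog {n : ℕ} (hn : 2 ≤ n) : Real.log n * ulog n = 1 := by
  rw [ulog, max_eq_left hn]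
  have : (1 : ℝ) < n := by exact_mod_cast hn
  rw [mul_one_div, div_self (Real.log_pos this).ne']

/-- **Siegel–Walfisz for primes with BV weights** (any norm interval `m < N p ≤ y`, `y ≤ X`). -/
theorem prime_sum_bound (hSW : SW.SWCoreStatement) (A C : ℕ) : ∃ c0 : ℝ, 0 < c0 ∧
    ∀ (χ : PO.Char) (M : O), IsPer χ M → ∀ X t : ℝ, 3 ≤ X → (N M : ℝ) ≤ (Real.log X) ^ C →
      |t| ≤ (Real.log X) ^ C → ∀ (w : ℕ → ℂ) (G : ℝ), BV w G → ∀ (m : ℕ) (y : ℝ), y ≤ X →
      ‖∑ p ∈ prm y with m < N p, w (N p) * χ.f p * nit t p‖ ≤ c0 * G * X / (Real.log X) ^ A := by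
  classical
  obtain ⟨c1, hc1, h1⟩ := thS_bound hSW A C
  refine ⟨8 * c1, by positivity, ?_⟩
  intro χ M hM X t hX hN ht w G hw m y hyX
  have hX0 : 0 < X := by linarith
  have hL := one_lt_log hX
  have hL0 : 0 < Real.log X := by linarith
  have hG := hw.nonneg
  set E := 2 * (c1 * X / Real.log X ^ A) with hE
  have hE0 : 0 ≤ E := by positivity
  have hb : ∀ j : ℕ, j ≤ ⌊y⌋₊ → ‖∑ k ∈ Ioc m j, ∑ b ∈ PO.sph k, gth χ t b‖ ≤ E := by
    intro j hj
    rcases Nat.lt_or_ge j m with hjm | hmj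
    · rw [Ioc_eq_empty (by omega), sum_empty, norm_zero]; exact hE0
    · rw [thS_sub χ t hmj]
      rcases lt_or_ge y 0 with hy | hy
      · have : ⌊y⌋₊ = 0 := Nat.floor_of_nonpos hy.le
        have h2 : j = m := by omega
        rw [h2, sub_self, norm_zero]; exact hE0
      have hjX : (j : ℝ) ≤ X := ((Nat.le_floor_iff hy).1 hj).trans hyX
      have hmX : (m : ℝ) ≤ X := le_trans (by exact_mod_cast hmj) hjX
      refine (norm_sub_le _ _).trans ?_
      have h2 := h1 χ M hM X t hX hN ht j hjX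
      have h3 := h1 χ M hM X t hX hN ht m hmX
      rw [hE]; linarith
  have hv : BV (fun n => w n * (ulog n : ℂ)) (2 * G * 2) :=
    hw.mul_antitone ulog_antitone ulog_nonneg ulog_zero
  have h4 := abel_le (fun k => ∑ b ∈ PO.sph k, gth χ t b) _ hv hb
  have h5 : ∑ k ∈ Ioc m ⌊y⌋₊, (∑ b ∈ PO.sph k, gth χ t b) * (w k * (ulog k : ℂ)) =
      ∑ p ∈ prm y with m < N p, w (N p) * χ.f p * nit t p := by
    have h6 : ∀ k ∈ Ioc m ⌊y⌋₊, (∑ b ∈ PO.sph k, gth χ t b) * (w k * (ulog k : ℂ)) =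
        ∑ b ∈ PO.sph k, gth χ t b * (w (N b) * (ulog (N b) : ℂ)) := by
      intro k _
      rw [sum_mul]
      refine sum_congr rfl fun b hb => ?_
      rw [PO.mem_sph, PO_N] at hb
      rw [hb.2]
    rw [sum_congr rfl h6, PO.sum_sph]
    have h7 : (prm y).filter (fun p => m < N p) =
        ((PO.ball ⌊y⌋₊).filter (fun b => m < PO.N b)).filter Prime := by
      rw [prm, filter_filter, filter_filter]
      refine filter_congr fun b _ => ?_
      rw [PO_N, and_comm]
    rw [h7]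
    conv_rhs => rw [sum_filter]
    refine sum_congr rfl fun b _ => ?_
    rw [gth]
    split_ifs with hb
    · have h8 := log_mul_ulog (two_le_N hb)
      have h9 : (Real.log (N b) : ℂ) * (ulog (N b) : ℂ) = 1 := by
        rw [← Complex.ofReal_mul, h8, Complex.ofReal_one]
      linear_combination (χ.f b * nit t b * w (N b)) * h9
    · rw [zero_mul]
  rw [h5] at h4
  refine h4.trans (le_of_eq ?_)
  rw [hE]; ring

end Vale.Agent.P006.H570
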