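import Vale.Agent.P006.H570.PrimeBV
import Vale.Agent.P006.H845.Order

/-!
# Rankin bound for squarefree primary elements with prime factors in a given set
-/

namespace Vale.Agent.P006.H570

open Finset

lemma mem_PO' {a : O} : a ∈ PO.P ↔ Primary a := Iff.rfl

lemma ball_eq_PB {y : ℝ} (hy : 0 ≤ y) : PO.ball ⌊y⌋₊ = PB y := by
  ext b
  rw [mem_ball_real hy, mem_PB, mem_PO']

lemma prm_eq_PP {y : ℝ} (hy : 0 ≤ y) : prm y = PP y := by
  ext b
  rw [mem_prm hy, mem_PP, mem_PO', and_assoc]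

lemma card_PB_le' {y : ℝ} : ((PB y).card : ℝ) ≤ 4 * max y 0 := by
  rcases le_or_gt 0 y with h | h
  · rw [max_eq_left h]; exact card_PB_le h
  · rw [PB_eq_empty (by linarith)]; simp

open Classical in
/-- squarefree primary elements of norm `≤ x` with all primary prime factors in `S` -/
noncomputable def SF (S : Finset O) (x : ℝ) : Finset O :=
  (PB x).filter (fun a => Squarefree a ∧ ∀ p ∈ pdv a, p ∈ S)

lemma mem_SF {S : Finset O} {x : ℝ} {a : O} :
    a ∈ SF S x ↔ (Primary a ∧ (N a : ℝ) ≤ x) ∧ Squarefree a ∧ ∀ p ∈ pdv a, p ∈ S := by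
  classical
  rw [SF, mem_filter, mem_PB]

theorem rankin {σ : ℝ} (hσ : 0 < σ) (S : Finset O) (hS : ∀ p ∈ S, Prime p ∧ Primary p) :
    ∀ x : ℝ, 0 ≤ x → ((SF S x).card : ℝ) ≤ x ^ σ * Real.exp (∑ p ∈ S, (N p : ℝ) ^ (-σ)) := by
  classical
  induction S using Finset.induction_on with
  | empty =>
    intro x hx
    simp only [sum_empty, Real.exp_zero, mul_one]
    have hsub : SF ∅ x ⊆ {1} := by
      intro a ha
      rw [mem_SF] at ha
      rw [mem_singleton]
      by_contra h1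
      obtain ⟨p, hp⟩ := pdv_nonempty ha.1.1 h1
      exact absurd (ha.2.2 p hp) (notMem_empty p)
    rcases lt_or_ge x 1 with h | h
    · have : SF ∅ x = ∅ := by
        rw [eq_empty_iff_forall_notMem]
        intro a ha
        rw [mem_SF] at ha
        have := ha.1.1.one_le_N'
        linarith [ha.1.2]
      rw [this]; simp only [card_empty, Nat.cast_zero]; positivity
    · have h2 := card_le_card hsub
      rw [card_singleton] at h2
      have h3 : 1 ≤ x ^ σ := Real.one_le_rpow h hσ.le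
      have h4 : ((SF ∅ x).card : ℝ) ≤ 1 := by exact_mod_cast h2
      linarith
  | insert p S hpS ih =>
    intro x hx
    obtain ⟨hp, hpp⟩ := hS p (mem_insert_self p S)
    have ih' := ih (fun q hq => hS q (mem_insert_of_mem hq))
    have hNp : (0 : ℝ) < N p := by exact_mod_cast N_pos hp.ne_zero
    have hsub : SF (insert p S) x ⊆ SF S x ∪ (SF S (x / N p)).image (fun m => p * m) := by
      intro a ha
      rw [mem_SF] at ha
      obtain ⟨⟨ha1, ha2⟩, ha3, ha4⟩ := ha
      rw [mem_union]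
      by_cases hpa : p ∣ a
      · right
        obtain ⟨m, rfl⟩ := hpa
        have hm : Primary m := hpp.of_mul ha1
        rw [mem_image]
        refine ⟨m, ?_, rfl⟩
        rw [mem_SF]
        refine ⟨⟨hm, ?_⟩, ha3.squarefree_of_dvd (dvd_mul_left m p), ?_⟩
        · rw [le_div_iff₀ hNp, mul_comm, ← Nat.cast_mul, ← N_mul]; exact ha2
        · intro q hq
          have hq2 := ha4 q (by rw [pdv_mul hpp hm, mem_union]; exact Or.inr hq)
          rw [mem_insert] at hq2
          rcases hq2 with rfl | hq2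
          · exfalso
            rw [mem_pdv hm.ne_zero] at hq
            exact hp.not_isUnit (ha3 q (mul_dvd_mul_left q hq.2.2))
          · exact hq2
      · left
        rw [mem_SF]
        refine ⟨⟨ha1, ha2⟩, ha3, fun q hq => ?_⟩
        have hq2 := ha4 q hq
        rw [mem_insert] at hq2
        rcases hq2 with rfl | hq2
        · rw [mem_pdv ha1.ne_zero] at hq
          exact absurd hq.2.2 hpa
        · exact hq2
    have hcard : ((SF (insert p S) x).card : ℝ) ≤ (SF S x).card + (SF S (x / N p)).card := by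
      have h1 := (card_le_card hsub).trans (card_union_le _ _)
      have h2 := card_image_le (s := SF S (x / N p)) (f := fun m => p * m)
      exact_mod_cast h1.trans (Nat.add_le_add_left h2 _)
    rw [sum_insert hpS, Real.exp_add]
    set E := Real.exp (∑ q ∈ S, (N q : ℝ) ^ (-σ)) with hE
    have hE0 : 0 < E := Real.exp_pos _
    have h1 := ih' x hx
    have h2 := ih' (x / N p) (by positivity)
    have h3 : (x / N p) ^ σ = x ^ σ * (N p : ℝ) ^ (-σ) := by
      rw [Real.div_rpow hx hNp.le, Real.rpow_neg hNp.le, div_eq_mul_inv]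
    have h4 : 1 + (N p : ℝ) ^ (-σ) ≤ Real.exp ((N p : ℝ) ^ (-σ)) := by
      rw [add_comm]; exact Real.add_one_le_exp _
    have hx0 : 0 ≤ x ^ σ := by positivity
    calc ((SF (insert p S) x).card : ℝ) ≤ x ^ σ * E + (x / N p) ^ σ * E := by linarith
      _ = x ^ σ * ((1 + (N p : ℝ) ^ (-σ)) * E) := by rw [h3]; ring
      _ ≤ x ^ σ * (Real.exp ((N p : ℝ) ^ (-σ)) * E) := by gcongr

/-! ### harmonic sums -/

lemma abel_sumR (a v : ℕ → ℝ) (m n : ℕ) (hmn : m ≤ n) :
    ∑ k ∈ Ioc m n, a k * v k = (∑ k ∈ Ioc m n, a k) * v n +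
      ∑ j ∈ Ico (m + 1) n, (∑ k ∈ Ioc m j, a k) * (v j - v (j + 1)) := by
  induction n, hmn using Nat.le_induction with
  | base => simp
  | succ n hmn ih =>
    rw [← insert_Ioc_right_eq_Ioc_add_one hmn, sum_insert (by simp), sum_insert (by simp), ih]
    rcases Nat.eq_or_lt_of_le hmn with h | h
    · subst h
      simp
    · have h1 : m + 1 ≤ n := h
      rw [← insert_Ico_right_eq_Ico_add_one h1, sum_insert (by simp)]
      ring

/-- `∑_{N b ≤ x} 1/N b ≤ 16 (2 + log x)` over primary `b` -/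
theorem harm_le {x : ℝ} (hx : 1 ≤ x) : ∑ b ∈ PB x, (1 : ℝ) / N b ≤ 16 * (2 + Real.log x) := by
  have hx0 : 0 ≤ x := by linarith
  rw [← ball_eq_PB hx0]
  have h1 : ∑ b ∈ PO.ball ⌊x⌋₊, (1 : ℝ) / N b =
      ∑ k ∈ Ioc 0 ⌊x⌋₊, PO.a0 k * ((1 : ℝ) / k) := by
    rw [← PO.sum_sph_one]
    have h2 : Icc 1 ⌊x⌋₊ = Ioc 0 ⌊x⌋₊ := by ext k; simp [Nat.succ_le_iff]
    rw [h2]
    refine sum_congr rfl fun k _ => ?_
    rw [PSys.a0, ← nsmul_eq_mul, ← sum_const]
    refine sum_congr rfl fun b hb => ?_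
    rw [PO.mem_sph, PO_N] at hb
    rw [hb.2]
  have hcnt : ∀ j : ℕ, ∑ k ∈ Ioc 0 j, PO.a0 k ≤ 16 * j := by
    intro j
    rcases Nat.eq_zero_or_pos j with h | h
    · subst h; simp
    · have h3 := count_PO (x := (j : ℝ)) (by exact_mod_cast h)
      rw [Nat.floor_natCast] at h3
      have h2 : Icc 1 j = Ioc 0 j := by ext k; simp [Nat.succ_le_iff]
      rwa [h2] at h3
  rw [h1, abel_sumR _ _ 0 _ (Nat.zero_le _)]
  set n := ⌊x⌋₊ with hn
  have hn1 : 1 ≤ n := by rw [hn, Nat.one_le_floor_iff]; exact hx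
  have hn0 : (0 : ℝ) < n := by exact_mod_cast hn1
  have t1 : (∑ k ∈ Ioc 0 n, PO.a0 k) * ((1 : ℝ) / n) ≤ 16 := by
    rw [mul_one_div, div_le_iff₀ hn0]; exact hcnt n
  have t2 : ∑ j ∈ Ico (0 + 1) n, (∑ k ∈ Ioc 0 j, PO.a0 k) * ((1 : ℝ) / j - 1 / (j + 1 : ℕ)) ≤
      ∑ j ∈ Ico (0 + 1) n, 16 * ((1 : ℝ) / (j + 1)) := by
    refine sum_le_sum fun j hj => ?_
    rw [mem_Ico] at hj
    have hj0 : (0 : ℝ) < j := by exact_mod_cast (by omega : 0 < j)
    have e1 : (1 : ℝ) / j - 1 / (j + 1 : ℕ) = 1 / (j * (j + 1)) := by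
      push_cast; field_simp; ring
    rw [e1]
    calc (∑ k ∈ Ioc 0 j, PO.a0 k) * (1 / (j * (j + 1) : ℝ)) ≤ (16 * j) * (1 / (j * (j + 1) : ℝ)) := by
          gcongr; exact hcnt j
      _ = 16 * ((1 : ℝ) / (j + 1)) := by field_simp
  have t3 : ∑ j ∈ Ico (0 + 1) n, 16 * ((1 : ℝ) / (j + 1)) ≤ 16 * (1 + Real.log x) := by
    rw [← mul_sum]
    apply mul_le_mul_of_nonneg_left _ (by norm_num)
    have h4 := harmonic_le_one_add_log n
    have h5 : ∑ j ∈ Ico (0 + 1) n, ((1 : ℝ) / (j + 1)) ≤ ((harmonic n : ℚ) : ℝ) := by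
      rw [harmonic]
      push_cast
      calc ∑ j ∈ Ico (0 + 1) n, ((1 : ℝ) / (j + 1)) ≤ ∑ j ∈ range n, ((1 : ℝ) / (j + 1)) := by
            apply sum_le_sum_of_subset_of_nonneg
            · intro j hj
              rw [mem_Ico] at hj
              rw [mem_range]; omega
            · intros; positivity
        _ = _ := by
            refine sum_congr rfl fun j _ => ?_
            rw [one_div]
    have h6 : Real.log n ≤ Real.log x := Real.log_le_log hn0 (Nat.floor_le hx0)
    linarith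
  linarith

end Vale.Agent.P006.H570
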