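import Vale.Agent.P006.H570.Rankin
import Vale.Agent.P006.SW.Main
import Vale.Agent.P006.CR.Symbol

/-!
# Siegel–Walfisz for coefficients of class G
-/

namespace Vale.Agent.P006.H570

open Finset

/-- class G: as a function of the strictly largest prime, the coefficient has bounded variation -/
structure ClassG (α : O → ℂ) (X G : ℝ) : Prop where
  supp : ∀ a, α a ≠ 0 → Primary a ∧ Squarefree a ∧ (N a : ℝ) ≤ X
  bound : ∀ a, ‖α a‖ ≤ G
  str : ∀ m, Primary m → ∃ w : ℕ → ℂ, BV w G ∧ ∀ p, Primary p → Prime p →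
    (∀ q, Primary q → Prime q → q ∣ m → N q < N p) → α (m * p) = w (N p)

/-- class G with threshold: the structure is only required for primes of norm `> T` -/
structure ClassGT (α : O → ℂ) (X G T : ℝ) : Prop where
  supp : ∀ a, α a ≠ 0 → Primary a ∧ Squarefree a ∧ (N a : ℝ) ≤ X
  bound : ∀ a, ‖α a‖ ≤ G
  str : ∀ m, Primary m → ∃ w : ℕ → ℂ, BV w G ∧ ∀ p, Primary p → Prime p → T < N p →
    (∀ q, Primary q → Prime q → q ∣ m → N q < N p) → α (m * p) = w (N p)

lemma ClassG.toGT {α : O → ℂ} {X G : ℝ} (h : ClassG α X G) (T : ℝ) : ClassGT α X G T where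
  supp := h.supp
  bound := h.bound
  str := fun m hm => by
    obtain ⟨w, hw, hwp⟩ := h.str m hm
    exact ⟨w, hw, fun p h1 h2 _ h4 => hwp p h1 h2 h4⟩

lemma ClassGT.nonneg {α : O → ℂ} {X G T : ℝ} (h : ClassGT α X G T) : 0 ≤ G :=
  (norm_nonneg _).trans (h.bound 0)

lemma ClassGT.mono {α : O → ℂ} {X G T T' : ℝ} (h : ClassGT α X G T) (hT : T ≤ T') :
    ClassGT α X G T' where
  supp := h.supp
  bound := h.bound
  str := fun m hm => by
    obtain ⟨w, hw, hwp⟩ := h.str m hm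
    exact ⟨w, hw, fun p h1 h2 h3 h4 => hwp p h1 h2 (hT.trans_lt h3) h4⟩

open Classical in
/-- the dilated coefficient `a ↦ α (j a)` -/
noncomputable def dil (j : O) (α : O → ℂ) (a : O) : ℂ := if Primary a then α (j * a) else 0

lemma ClassGT.dil {α : O → ℂ} {X G T : ℝ} (h : ClassGT α X G T) {j : O} (hj : Primary j) :
    ClassGT (dil j α) (X / N j) G (max T (N j)) where
  supp := fun a ha => by
    rw [H570.dil] at ha
    split_ifs at ha with h1
    · obtain ⟨h2, h3, h4⟩ := h.supp _ ha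
      refine ⟨h1, h3.squarefree_of_dvd (dvd_mul_left a j), ?_⟩
      have hN : (0 : ℝ) < N j := by exact_mod_cast N_pos hj.ne_zero
      rw [le_div_iff₀ hN]
      rw [N_mul, Nat.cast_mul] at h4
      linarith
    · exact absurd rfl ha
  bound := fun a => by
    rw [H570.dil]
    split_ifs
    · exact h.bound _
    · rw [norm_zero]; exact h.nonneg
  str := fun m hm => by
    obtain ⟨w, hw, hwp⟩ := h.str (j * m) (hj.mul hm)
    refine ⟨w, hw, fun p h1 h2 h3 h4 => ?_⟩
    rw [H570.dil, if_pos (hm.mul h1), ← mul_assoc]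
    refine hwp p h1 h2 ((le_max_left _ _).trans_lt h3) ?_
    intro q hq1 hq2 hq3
    rcases hq2.dvd_or_dvd hq3 with h5 | h5
    · have h6 : N q ≤ N j := Nat.le_of_dvd (N_pos hj.ne_zero) (N_dvd_N h5)
      have h7 : (N j : ℝ) < N p := (le_max_right _ _).trans_lt h3
      have h8 : N j < N p := by exact_mod_cast h7
      omega
    · exact h4 q hq1 hq2 h5

lemma exp_bound (n : ℕ) {l : ℝ} (hl : 0 ≤ l) : l ^ n ≤ n.factorial * Real.exp l := by
  have h := Real.pow_div_factorial_le_exp l hl n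
  rw [div_le_iff₀ (by positivity)] at h
  linarith

/-- count of squarefree smooth elements -/
lemma smooth_count (A : ℕ) : ∃ c : ℝ, 0 < c ∧ ∀ l : ℝ, 2 ≤ l →
    ((SF (PP (Real.exp l)) (Real.exp (l ^ 3))).card : ℝ) ≤ c * Real.exp (l ^ 3) / (l ^ 3) ^ A := by
  refine ⟨(3 * A).factorial * Real.exp 600, by positivity, fun l hl => ?_⟩
  have hl0 : 0 < l := by linarith
  have hσ : 0 < 1 - 1 / l := by
    have : 1 / l ≤ 1 / 2 := one_div_le_one_div_of_le (by norm_num) hl
    linarith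
  have h := rankin hσ (PP (Real.exp l))
    (fun p hp => by rw [mem_PP] at hp; exact ⟨hp.2, hp.1.1⟩) (Real.exp (l ^ 3)) (Real.exp_pos _).le
  have h1 : Real.exp (l ^ 3) ^ (1 - 1 / l) = Real.exp (l ^ 3) * Real.exp (-l ^ 2) := by
    rw [← Real.exp_mul, ← Real.exp_add]
    congr 1
    field_simp; ring
  have h2 : ∑ p ∈ PP (Real.exp l), (N p : ℝ) ^ (-(1 - 1 / l)) ≤ 44 * (2 + l) := by
    have h3 : ∀ p ∈ PP (Real.exp l), (N p : ℝ) ^ (-(1 - 1 / l)) ≤ 2.72 * (1 / N p) := by
      intro p hp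
      rw [mem_PP] at hp
      have hNp : (0 : ℝ) < N p := by exact_mod_cast N_pos hp.1.1.ne_zero
      have h4 : (N p : ℝ) ^ (-(1 - 1 / l)) = (N p : ℝ) ^ (1 / l) * (1 / N p) := by
        rw [neg_sub, Real.rpow_sub hNp, Real.rpow_one]; ring
      rw [h4]
      have h5 : (N p : ℝ) ^ (1 / l) ≤ Real.exp 1 := by
        calc (N p : ℝ) ^ (1 / l) ≤ (Real.exp l) ^ (1 / l) :=
              Real.rpow_le_rpow hNp.le hp.1.2 (by positivity)
          _ = Real.exp 1 := by
              rw [← Real.exp_mul]; congr 1; field_simp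
      have h6 : Real.exp 1 ≤ 2.72 := by linarith [Real.exp_one_lt_d9]
      gcongr
      linarith
    have h7 : PP (Real.exp l) ⊆ PB (Real.exp l) := by
      intro p hp
      rw [mem_PP] at hp
      rw [mem_PB]; exact hp.1
    have h8 := harm_le (x := Real.exp l) (Real.one_le_exp hl0.le)
    rw [Real.log_exp] at h8
    calc _ ≤ ∑ p ∈ PP (Real.exp l), 2.72 * (1 / (N p : ℝ)) := sum_le_sum h3
      _ ≤ ∑ p ∈ PB (Real.exp l), 2.72 * (1 / (N p : ℝ)) :=
          sum_le_sum_of_subset_of_nonneg h7 (fun _ _ _ => by positivity)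
      _ = 2.72 * ∑ p ∈ PB (Real.exp l), (1 / (N p : ℝ)) := by rw [mul_sum]
      _ ≤ 2.72 * (16 * (2 + l)) := by gcongr
      _ ≤ 44 * (2 + l) := by nlinarith
  rw [le_div_iff₀ (by positivity)]
  calc ((SF (PP (Real.exp l)) (Real.exp (l ^ 3))).card : ℝ) * (l ^ 3) ^ A
      ≤ (Real.exp (l ^ 3) ^ (1 - 1 / l) *
        Real.exp (∑ p ∈ PP (Real.exp l), (N p : ℝ) ^ (-(1 - 1 / l)))) * (l ^ 3) ^ A := by gcongr
    _ ≤ (Real.exp (l ^ 3) * Real.exp (-l ^ 2) * Real.exp (44 * (2 + l))) *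
        ((3 * A).factorial * Real.exp l) := by
        rw [h1, ← pow_mul]
        have := exp_bound (3 * A) hl0.le
        gcongr
    _ = (3 * A).factorial * Real.exp (l ^ 3) * Real.exp (-l ^ 2 + 44 * (2 + l) + l) := by
        rw [Real.exp_add, Real.exp_add]; ring
    _ ≤ (3 * A).factorial * Real.exp (l ^ 3) * Real.exp 600 := by
        gcongr
        nlinarith [sq_nonneg (l - 45 / 2)]
    _ = _ := by ring

/-- if two different primary primes have the same norm, they are conjugate -/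
lemma eq_star_of_N_eq {p q : O} (hp : Prime p) (hpp : Primary p) (hq : Prime q) (hqp : Primary q)
    (h : N p = N q) (hne : p ≠ q) : q = star p := by
  have h1 : q ∣ p * star p := by
    rw [← N_mul_star, h, N_mul_star]; exact dvd_mul_right _ _
  rcases hq.dvd_or_dvd h1 with h2 | h2
  · exact absurd (hqp.eq_of_associated hpp (hq.associated_of_dvd hp h2)).symm hne
  · exact hqp.eq_of_associated hpp.star (hq.associated_of_dvd (prime_star hp) h2)

open Classical in
/-- elements divisible by `p * star p` for some prime of norm `> z` -/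
noncomputable def conjSet (z X : ℝ) : Finset O :=
  ((PP X).filter (fun p => z < (N p : ℝ))).biUnion
    (fun p => (PB (X / (N p : ℝ) ^ 2)).image (fun b => p * star p * b))

lemma card_conjSet {z X : ℝ} (hz : 0 < z) (hX : 1 ≤ X) :
    ((conjSet z X).card : ℝ) ≤ 64 * X / z * (2 + Real.log X) := by
  classical
  have h1 : ((conjSet z X).card : ℝ) ≤
      ∑ p ∈ (PP X).filter (fun p => z < (N p : ℝ)), ((PB (X / (N p : ℝ) ^ 2)).card : ℝ) := by
    have h2 : (conjSet z X).card ≤ ∑ p ∈ (PP X).filter (fun p => z < (N p : ℝ)),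
        (PB (X / (N p : ℝ) ^ 2)).card :=
      card_biUnion_le.trans (sum_le_sum fun p _ => card_image_le)
    exact_mod_cast h2
  have hX0 : 0 < X := by linarith
  calc ((conjSet z X).card : ℝ)
      ≤ ∑ p ∈ (PP X).filter (fun p => z < (N p : ℝ)), ((PB (X / (N p : ℝ) ^ 2)).card : ℝ) := h1
    _ ≤ ∑ p ∈ (PP X).filter (fun p => z < (N p : ℝ)), (4 * X / z) * (1 / (N p : ℝ)) := by
        refine sum_le_sum fun p hp => ?_
        rw [mem_filter, mem_PP] at hp
        have hNp : (0 : ℝ) < N p := by linarith [hp.2]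
        refine (card_PB_le (by positivity)).trans ?_
        rw [div_mul_div_comm, mul_one, mul_div_assoc', div_le_div_iff₀ (by positivity)
          (by positivity)]
        have h3 : z * (N p : ℝ) ≤ (N p : ℝ) ^ 2 := by nlinarith [hp.2]
        exact mul_le_mul_of_nonneg_left h3 (by positivity)
    _ ≤ ∑ p ∈ PB X, (4 * X / z) * (1 / (N p : ℝ)) := by
        apply sum_le_sum_of_subset_of_nonneg
        · intro p hp
          rw [mem_filter, mem_PP] at hp
          rw [mem_PB]; exact hp.1.1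
        · intros; positivity
    _ = (4 * X / z) * ∑ p ∈ PB X, (1 / (N p : ℝ)) := by rw [mul_sum]
    _ ≤ (4 * X / z) * (16 * (2 + Real.log X)) := by
        gcongr; exact harm_le hX
    _ = _ := by ring

/-- number of primary primes dividing `ν` -/
lemma card_pdv_le {ν : O} (hν : ν ≠ 0) : ((pdv ν).card : ℝ) ≤ 2 * Real.log (N ν) := by
  have h1 : ∏ p ∈ pdv ν, p ∣ ν := by
    apply Finset.prod_dvd_of_coprime
    · intro p hp q hq hpq
      rw [mem_coe, mem_pdv hν] at hp hq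
      rw [Function.onFun, Irreducible.coprime_iff_not_dvd hp.2.1.irreducible]
      intro h
      exact hpq (hp.1.eq_of_associated hq.1 (hp.2.1.associated_of_dvd hq.2.1 h))
    · intro p hp
      rw [mem_pdv hν] at hp
      exact hp.2.2
  have h2 : 2 ^ (pdv ν).card ≤ N ν := by
    have h3 : N (∏ p ∈ pdv ν, p) ≤ N ν := Nat.le_of_dvd (N_pos hν) (N_dvd_N h1)
    refine le_trans ?_ h3
    have h4 : N (∏ p ∈ pdv ν, p) = ∏ p ∈ pdv ν, N p := by
      have := map_prod PO.N (fun p => p) (pdv ν)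
      exact this
    rw [h4, ← prod_const]
    refine prod_le_prod (fun _ _ => by norm_num) fun p hp => ?_
    rw [mem_pdv hν] at hp
    exact two_le_N hp.2.1
  have h3 : (2 : ℝ) ^ (pdv ν).card ≤ N ν := by exact_mod_cast h2
  have h4 := Real.log_le_log (by positivity) h3
  rw [Real.log_pow] at h4
  have h5 : (0.5 : ℝ) ≤ Real.log 2 := by
    have := Real.log_two_gt_d9
    linarith
  have h6 : ((pdv ν).card : ℝ) * 0.5 ≤ (pdv ν).card * Real.log 2 := by gcongr
  linarith

/-- norm of the largest prime factor (0 if none) -/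
noncomputable def topN (m : O) : ℕ := (pdv m).sup N

lemma lt_topN_iff {m : O} {n : ℕ} (hm : m ≠ 0) (hn : 0 < n) :
    topN m < n ↔ ∀ q, Primary q → Prime q → q ∣ m → N q < n := by
  rw [topN, Finset.sup_lt_iff hn]
  constructor
  · intro h q h1 h2 h3
    exact h q ((mem_pdv hm).2 ⟨h1, h2, h3⟩)
  · intro h q hq
    rw [mem_pdv hm] at hq
    exact h q hq.1 hq.2.1 hq.2.2

/-- threshold for the largest prime -/
noncomputable def thr (z : ℝ) (m : O) : ℕ := max ⌊z⌋₊ (topN m)

open Classical in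
/-- pairs `(m, p)` with `p` strictly larger than all primes of `m`, and `N p > z` -/
noncomputable def pairs (z X : ℝ) : Finset ((_ : O) × O) :=
  (PB (X / z)).sigma (fun m => (prm (X / N m)).filter (fun p => thr z m < N p))

lemma mem_pairs {z X : ℝ} (hz : 0 < z) (hX : 0 ≤ X) {x : (_ : O) × O} : x ∈ pairs z X ↔
    (Primary x.1 ∧ (N x.1 : ℝ) ≤ X / z) ∧ (Primary x.2 ∧ (N x.2 : ℝ) ≤ X / N x.1 ∧ Prime x.2) ∧
      z < N x.2 ∧ ∀ q, Primary q → Prime q → q ∣ x.1 → N q < N x.2 := by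
  classical
  rw [pairs, mem_sigma, mem_PB, mem_filter, mem_prm (by positivity), mem_PO', thr, max_lt_iff,
    Nat.floor_lt hz.le]
  constructor
  · rintro ⟨h1, ⟨h2, h3, h4⟩, h5, h6⟩
    exact ⟨h1, ⟨h2, h3, h4⟩, h5, (lt_topN_iff h1.1.ne_zero (N_pos h2.ne_zero)).1 h6⟩
  · rintro ⟨h1, ⟨h2, h3, h4⟩, h5, h6⟩
    exact ⟨h1, ⟨h2, h3, h4⟩, h5, (lt_topN_iff h1.1.ne_zero (N_pos h2.ne_zero)).2 h6⟩

lemma pairs_mul_mem {z X : ℝ} (hz : 0 < z) (hX : 0 ≤ X) {x : (_ : O) × O} (hx : x ∈ pairs z X) :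
    x.1 * x.2 ∈ PB X := by
  rw [mem_pairs hz hX] at hx
  rw [mem_PB]
  refine ⟨hx.1.1.mul hx.2.1.1, ?_⟩
  have hN : (0 : ℝ) < N x.1 := by exact_mod_cast N_pos hx.1.1.ne_zero
  rw [N_mul, Nat.cast_mul, mul_comm, ← le_div_iff₀ hN]
  exact hx.2.1.2.1

lemma pairs_injOn {z X : ℝ} (hz : 0 < z) (hX : 0 ≤ X) :
    Set.InjOn (fun x : (_ : O) × O => x.1 * x.2) (pairs z X : Set ((_ : O) × O)) := by
  rintro ⟨m, p⟩ hx ⟨m', p'⟩ hy h
  rw [mem_coe, mem_pairs hz hX] at hx hy
  simp only at hx hy h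
  obtain ⟨⟨hm, _⟩, ⟨hp, _, hpp⟩, _, hmax⟩ := hx
  obtain ⟨⟨hm', _⟩, ⟨hp', _, hpp'⟩, _, hmax'⟩ := hy
  have key : p = p' := by
    have h1 : p ∣ m' * p' := h ▸ dvd_mul_left p m
    have h2 : p' ∣ m * p := h ▸ dvd_mul_left p' m'
    rcases hpp.dvd_or_dvd h1 with h3 | h3
    · rcases hpp'.dvd_or_dvd h2 with h4 | h4
      · have h5 := hmax' p hp hpp h3
        have h6 := hmax p' hp' hpp' h4
        omega
      · exact (hp'.eq_of_associated hp (hpp'.associated_of_dvd hpp h4)).symm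
    · exact hp.eq_of_associated hp' (hpp.associated_of_dvd hpp' h3)
  subst key
  have := mul_right_cancel₀ hpp.ne_zero h
  subst this
  rfl

/-- squarefree primary elements outside the image of `pairs` are smooth or in `conjSet` -/
lemma mem_of_not_image {z X : ℝ} (hz : 0 < z) (hX : 0 ≤ X) {a : O} (ha : a ∈ PB X)
    (hs : Squarefree a) (h : ∀ x ∈ pairs z X, x.1 * x.2 ≠ a) :
    a ∈ SF (PP z) X ∨ a ∈ conjSet z X := by
  classical
  rw [mem_PB] at ha
  by_cases h1 : a = 1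
  · left
    rw [mem_SF]
    refine ⟨ha, hs, fun p hp => ?_⟩
    rw [h1, pdv_one] at hp
    exact absurd hp (notMem_empty p)
  obtain ⟨m, hm, hms, ham, hq⟩ := exists_eq_Pmax_mul ha.1 h1 hs
  have hp := Pmax_prime ha.1 h1
  have hpp := Pmax_primary ha.1 h1
  have hkey : ∀ q ∈ pdv a, key q ≤ key (Pmax a) := fun q hq => le_key_Pmax hq
  generalize Pmax a = p at hp hpp hkey ham hq
  have hNp : (0 : ℝ) < N p := by exact_mod_cast N_pos hp.ne_zero
  have hNm : (0 : ℝ) < N m := by exact_mod_cast N_pos hm.ne_zero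
  have hNa : (N a : ℝ) = N p * N m := by rw [ham, N_mul, Nat.cast_mul]
  rcases le_or_gt (N p : ℝ) z with h2 | h2
  · left
    rw [mem_SF]
    refine ⟨ha, hs, fun q hqa => ?_⟩
    have h3 := N_le_of_key_le (hkey q hqa)
    rw [mem_pdv ha.1.ne_zero] at hqa
    rw [mem_PP]
    refine ⟨⟨hqa.1, ?_⟩, hqa.2.1⟩
    have h4 : (N q : ℝ) ≤ N p := by exact_mod_cast h3
    linarith
  · right
    by_cases h3 : ∀ q, Primary q → Prime q → q ∣ m → N q < N p
    · exfalso
      refine h ⟨m, p⟩ ?_ (by simp only; rw [mul_comm]; exact ham.symm)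
      rw [mem_pairs hz hX]
      refine ⟨⟨hm, ?_⟩, ⟨hpp, ?_, hp⟩, h2, h3⟩
      · rw [le_div_iff₀ hz]
        have : (N m : ℝ) * z ≤ N m * N p := by gcongr
        linarith [ha.2, hNa]
      · rw [le_div_iff₀ hNm]
        linarith [ha.2, hNa]
    · push Not at h3
      obtain ⟨q, hq1, hq2, hqm, hle⟩ := h3
      have h4 : q ∈ pdv m := (mem_pdv hm.ne_zero).2 ⟨hq1, hq2, hqm⟩
      have h5 := hq q h4
      have h6 : N q = N p := le_antisymm (N_le_of_key_lt h5) hle
      have h7 : p ≠ q := fun h => by rw [h] at h5; exact lt_irrefl _ h5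
      have h8 := eq_star_of_N_eq hp hpp hq2 hq1 h6.symm h7
      obtain ⟨b, hb⟩ := hqm
      have hbp : Primary b := hq1.of_mul (hb ▸ hm)
      have hNb : (N m : ℝ) = N p * N b := by
        rw [hb, N_mul, Nat.cast_mul, h6]
      rw [conjSet, mem_biUnion]
      refine ⟨p, ?_, ?_⟩
      · rw [mem_filter, mem_PP]
        refine ⟨⟨⟨hpp, ?_⟩, hp⟩, h2⟩
        have h9 : (1 : ℝ) ≤ N m := hm.one_le_N'
        calc (N p : ℝ) ≤ N p * N m := le_mul_of_one_le_right hNp.le h9
          _ = N a := hNa.symm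
          _ ≤ X := ha.2
      · rw [mem_image]
        refine ⟨b, ?_, ?_⟩
        · rw [mem_PB]
          refine ⟨hbp, ?_⟩
          rw [le_div_iff₀ (by positivity)]
          calc (N b : ℝ) * (N p : ℝ) ^ 2 = N p * (N p * N b) := by ring
            _ = N a := by rw [hNa, hNb]
            _ ≤ X := ha.2
        · rw [ham, hb, h8]; ring

end Vale.Agent.P006.H570
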