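import Vale.Agent.P006.H570.Per
import Vale.Agent.P006.H570.Arith

/-!
# Siegel–Walfisz data for periodic cubic characters on primary Eisenstein integers
-/

namespace Vale.Agent.P006.H570

open Finset

namespace PSys

variable {R : Type*} [CommRing R] [IsDomain R] (S : PSys R)

lemma sum_sph [UniqueFactorizationMonoid R] {M : Type*} [AddCommMonoid M] (f : R → M) (m n : ℕ) :
    ∑ k ∈ Ioc m n, ∑ b ∈ S.sph k, f b = ∑ b ∈ S.ball n with m < S.N b, f b := by
  classical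
  have h := sum_fiberwise_of_maps_to (s := (S.ball n).filter (fun b => m < S.N b))
    (t := Ioc m n) (g := fun b => S.N b) (f := f) (by
      intro b hb
      rw [mem_filter, S.mem_ball] at hb
      rw [mem_Ioc]
      exact ⟨hb.2, hb.1.2⟩)
  rw [← h]
  refine sum_congr rfl fun k hk => sum_congr ?_ fun _ _ => rfl
  rw [mem_Ioc] at hk
  ext b
  simp only [S.mem_sph, mem_filter, S.mem_ball]
  constructor
  · rintro ⟨h1, h2⟩
    exact ⟨⟨⟨h1, h2 ▸ hk.2⟩, h2 ▸ hk.1⟩, h2⟩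
  · rintro ⟨⟨⟨h1, _⟩, _⟩, h2⟩
    exact ⟨h1, h2⟩

lemma sum_sph_one [UniqueFactorizationMonoid R] {M : Type*} [AddCommMonoid M] (f : R → M) (n : ℕ) :
    ∑ k ∈ Icc 1 n, ∑ b ∈ S.sph k, f b = ∑ b ∈ S.ball n, f b := by
  have h := S.sum_sph f 0 n
  have h1 : Icc 1 n = Ioc 0 n := by ext k; simp [Nat.succ_le_iff]
  rw [h1, h]
  congr 1
  apply filter_true_of_mem
  intro b hb
  exact S.N_pos' ((S.mem_ball).1 hb).1

end PSys

open Classical in
lemma ball_PO {x : ℝ} (hx : 0 ≤ x) : PO.ball ⌊x⌋₊ = (nb x).filter (fun b => b ∈ PO.P) := by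
  ext b
  rw [PO.mem_ball, mem_filter, mem_nb hx, PO_N, Nat.le_floor_iff hx]
  tauto

/-- `χ` is periodic mod `M` and nontrivial -/
structure IsPer (χ : PO.Char) (M : O) : Prop where
  ne : M ≠ 0
  three : (3 : O) ∣ M
  per : ∀ a ∈ PO.P, ∀ b ∈ PO.P, M ∣ a - b → χ.f a = χ.f b
  nontriv : ∃ a ∈ PO.P, IsCoprime a M ∧ χ.f a ≠ 1

lemma IsPer.sq {χ : PO.Char} {M : O} (h : IsPer χ M) : IsPer χ.sq M where
  ne := h.ne
  three := h.three
  per := fun a ha b hb hab => by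
    show χ.f a ^ 2 = χ.f b ^ 2
    rw [h.per a ha b hb hab]
  nontriv := by
    obtain ⟨a, ha, hc, h1⟩ := h.nontriv
    refine ⟨a, ha, hc, ?_⟩
    show χ.f a ^ 2 ≠ 1
    intro h2
    rcases χ.vals a ha with h3 | h3
    · rw [h3] at h2; norm_num at h2
    · apply h1
      have : χ.f a ^ 3 = χ.f a ^ 2 * χ.f a := by ring
      rw [h3, h2, one_mul] at this
      exact this.symm

open Classical in
/-- the function induced on residue classes -/
noncomputable def clsF (χ : PO.Char) (M : O) (c : O ⧸ Ideal.span {M}) : ℂ :=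
  if h : ∃ a ∈ PO.P, Ideal.Quotient.mk (Ideal.span {M}) a = c then χ.f h.choose else 0

lemma clsF_mk {χ : PO.Char} {M : O} (h : IsPer χ M) {b : O} (hb : b ∈ PO.P) :
    clsF χ M (Ideal.Quotient.mk _ b) = χ.f b := by
  have h1 : ∃ a ∈ PO.P, Ideal.Quotient.mk (Ideal.span {M}) a = Ideal.Quotient.mk _ b :=
    ⟨b, hb, rfl⟩
  rw [clsF, dif_pos h1]
  have h2 := h1.choose_spec
  rw [Ideal.Quotient.eq, Ideal.mem_span_singleton] at h2
  exact h.per _ h2.1 _ hb h2.2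

lemma clsF_mk' {χ : PO.Char} {M : O} (h : IsPer χ M) {b : O} (hb : b ∉ PO.P) :
    clsF χ M (Ideal.Quotient.mk _ b) = 0 := by
  rw [clsF, dif_neg]
  rintro ⟨a, ha, hab⟩
  rw [Ideal.Quotient.eq, Ideal.mem_span_singleton] at hab
  apply hb
  rw [mem_PO] at ha ⊢
  have h1 : (3 : O) ∣ a - b := h.three.trans hab
  have h2 : b - 1 = (a - 1) - (a - b) := by ring
  rw [h2]
  exact dvd_sub ha h1

lemma clsF_norm_le {χ : PO.Char} {M : O} (h : IsPer χ M) (c : O ⧸ Ideal.span {M}) :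
    ‖clsF χ M c‖ ≤ 1 := by
  obtain ⟨b, rfl⟩ := Ideal.Quotient.mk_surjective c
  by_cases hb : b ∈ PO.P
  · rw [clsF_mk h hb]; exact χ.norm_le hb
  · rw [clsF_mk' h hb]; simp

lemma sum_clsF {χ : PO.Char} {M : O} (h : IsPer χ M) [Fintype (O ⧸ Ideal.span {M})] :
    ∑ c, clsF χ M c = 0 := by
  obtain ⟨a, ha, ⟨u, v, huv⟩, h1⟩ := h.nontriv
  have hinv : Ideal.Quotient.mk (Ideal.span {M}) u * Ideal.Quotient.mk (Ideal.span {M}) a = 1 := by
    rw [← map_mul, ← map_one (Ideal.Quotient.mk (Ideal.span {M})), Ideal.Quotient.eq,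
      Ideal.mem_span_singleton]
    exact ⟨-v, by rw [← huv]; ring⟩
  have h2 : ∀ c, clsF χ M (Ideal.Quotient.mk _ a * c) = χ.f a * clsF χ M c := by
    intro c
    obtain ⟨b, rfl⟩ := Ideal.Quotient.mk_surjective c
    rw [← map_mul]
    by_cases hb : b ∈ PO.P
    · rw [clsF_mk h hb, clsF_mk h (PO.P.mul_mem ha hb), χ.mul a ha b hb]
    · have : a * b ∉ PO.P := fun hab => hb (PO.mem_of_mul ha hab)
      rw [clsF_mk' h hb, clsF_mk' h this, mul_zero]
  have h3 : Function.Bijective fun c : O ⧸ Ideal.span {M} => Ideal.Quotient.mk _ a * c := by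
    refine ⟨fun c d hcd => ?_, fun c => ⟨Ideal.Quotient.mk _ u * c, ?_⟩⟩
    · have := congrArg (fun z => Ideal.Quotient.mk (Ideal.span {M}) u * z) hcd
      simp only [← mul_assoc, hinv, one_mul] at this
      exact this
    · show Ideal.Quotient.mk _ a * (Ideal.Quotient.mk _ u * c) = c
      rw [← mul_assoc, mul_comm (Ideal.Quotient.mk _ a), hinv, one_mul]
  have h4 : ∑ c, clsF χ M c = χ.f a * ∑ c, clsF χ M c := by
    rw [mul_sum, ← h3.sum_comp]
    exact sum_congr rfl fun c _ => h2 c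
  have h5 : (1 - χ.f a) * ∑ c, clsF χ M c = 0 := by
    rw [sub_mul, one_mul, ← h4, sub_self]
  rcases mul_eq_zero.1 h5 with h6 | h6
  · exact absurd (sub_eq_zero.1 h6).symm h1
  · exact h6

theorem norm_psum_le {χ : PO.Char} {M : O} (h : IsPer χ M) {x : ℝ} (hx : 1 ≤ x) :
    ‖∑ n ∈ Icc 1 ⌊x⌋₊, PO.co χ.f n‖ ≤ 256 * N M * √x := by
  classical
  have := finite_quot M h.ne
  have := Fintype.ofFinite (O ⧸ Ideal.span {M})
  have h1 : ∑ n ∈ Icc 1 ⌊x⌋₊, PO.co χ.f n = ∑ b ∈ nb x, clsF χ M (Ideal.Quotient.mk _ b) := by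
    simp only [PSys.co]
    rw [PO.sum_sph_one, ball_PO (by linarith), sum_filter]
    refine sum_congr rfl fun b _ => ?_
    split_ifs with hb
    · rw [clsF_mk h hb]
    · rw [clsF_mk' h hb]
  rw [h1]
  exact norm_sum_class_le M h.ne _ (clsF_norm_le h) (sum_clsF h) hx

lemma count_PO {x : ℝ} (hx : 1 ≤ x) : ∑ n ∈ Icc 1 ⌊x⌋₊, PO.a0 n ≤ 16 * x := by
  classical
  have h1 : ∑ n ∈ Icc 1 ⌊x⌋₊, PO.a0 n = ((PO.ball ⌊x⌋₊).card : ℝ) := by
    have := PO.sum_sph_one (fun _ => (1 : ℝ)) ⌊x⌋₊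
    simpa [PSys.a0] using this
  rw [h1, ball_PO (by linarith)]
  have h2 : (((nb x).filter (fun b => b ∈ PO.P)).card : ℝ) ≤ (nb x).card := by
    exact_mod_cast card_filter_le _ _
  have h3 := card_nb (x := x) (by linarith)
  have h4 : 1 ≤ √x := Real.one_le_sqrt.2 hx
  have h5 : √x ^ 2 = x := Real.sq_sqrt (by linarith)
  nlinarith

lemma short_PO {x h : ℝ} (hx : 1 ≤ x) (hh : 0 ≤ h) (hhx : h ≤ x) :
    ∑ n ∈ Ioc ⌊x⌋₊ ⌊x + h⌋₊, PO.a0 n ≤ 64 * (h + √x) := by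
  classical
  have h1 : ∑ n ∈ Ioc ⌊x⌋₊ ⌊x + h⌋₊, PO.a0 n =
      (((PO.ball ⌊x + h⌋₊).filter (fun b => ⌊x⌋₊ < PO.N b)).card : ℝ) := by
    have := PO.sum_sph (fun _ => (1 : ℝ)) ⌊x⌋₊ ⌊x + h⌋₊
    simpa [PSys.a0] using this
  have hx0 : 0 ≤ x := by linarith
  have hxh : 0 ≤ x + h := by linarith
  have h2 : ((PO.ball ⌊x + h⌋₊).filter (fun b => ⌊x⌋₊ < PO.N b)) ⊆ nb (x + h) \ nb x := by
    intro b hb
    rw [mem_filter, PO.mem_ball, PO_N, Nat.le_floor_iff hxh, Nat.floor_lt hx0] at hb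
    rw [mem_sdiff, mem_nb hxh, mem_nb hx0, not_le]
    exact ⟨hb.1.2, hb.2⟩
  have h3 : nb x ⊆ nb (x + h) := by
    intro b hb
    rw [mem_nb hx0] at hb
    rw [mem_nb hxh]; linarith
  have h4 := card_class_sub_le 0 1 one_ne_zero hx0
  have h5 := card_class_sub_le 0 1 one_ne_zero hxh
  have h6 : ∀ y : ℝ, (nb y).filter (fun b => (1 : O) ∣ b - 0) = nb y := by
    intro y; apply filter_true_of_mem; intro b _; exact one_dvd _
  rw [h6, N_one, Nat.cast_one, div_one] at h4 h5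
  rw [h1]
  have h7 : (((PO.ball ⌊x + h⌋₊).filter (fun b => ⌊x⌋₊ < PO.N b)).card : ℝ)
      ≤ (nb (x + h)).card - (nb x).card := by
    have := card_le_card h2
    rw [card_sdiff_of_subset h3] at this
    have h8 := card_le_card h3
    have h9 : (((PO.ball ⌊x + h⌋₊).filter (fun b => ⌊x⌋₊ < PO.N b)).card : ℝ)
      ≤ (((nb (x + h)).card - (nb x).card : ℕ) : ℝ) := by exact_mod_cast this
    rwa [Nat.cast_sub h8] at h9
  have h10 : √(x + h) ≤ 2 * √x := by
    rw [Real.sqrt_le_left (by positivity), mul_pow, Real.sq_sqrt hx0]; linarith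
  have h11 : 1 ≤ √x := Real.one_le_sqrt.2 hx
  have h12 : (1.73 : ℝ) < √3 := by
    rw [Real.lt_sqrt (by norm_num)]; norm_num
  have hc : 2 * Real.pi / √3 ≤ 4 := by
    rw [div_le_iff₀ (by positivity)]; nlinarith [Real.pi_lt_d2]
  have e1 : 2 * Real.pi * (x + h) / √3 - 2 * Real.pi * x / √3 ≤ 4 * h := by
    have : 2 * Real.pi * (x + h) / √3 - 2 * Real.pi * x / √3 = (2 * Real.pi / √3) * h := by ring
    rw [this]
    exact mul_le_mul_of_nonneg_right hc hh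
  rw [abs_le] at h4 h5
  linarith [h4.1, h5.2]

/-- **Siegel–Walfisz data** for periodic cubic characters on primary Eisenstein integers. -/
theorem swData_PO {χ : PO.Char} {M : O} (h : IsPer χ M) :
    SW.SWData PO.a0 PO.L0 (PO.co χ.f) (PO.coL χ.f) (PO.co χ.sq.f) (PO.coL χ.sq.f)
      64 (256 * N M) := by
  have hN : (1 : ℝ) ≤ N M := by exact_mod_cast N_pos h.ne
  refine PO.swData χ (by norm_num) (by linarith) ?_ ?_ ?_ ?_
  · intro x hx
    have := count_PO hx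
    linarith
  · intro x y hx hy hyx
    exact short_PO hx hy hyx
  · intro x hx
    exact norm_psum_le h hx
  · intro x hx
    exact norm_psum_le h.sq hx

end Vale.Agent.P006.H570
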