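import Vale.Agent.P006.H570.SWG

/-!
# Main theorem: Siegel–Walfisz for class G coefficients
-/

namespace Vale.Agent.P006.H570

open Finset

open Classical in
/-- the summand -/
noncomputable def FF (χ : PO.Char) (t : ℝ) (ν : O) (α : O → ℂ) (a : O) : ℂ :=
  if IsCoprime a ν then α a * χ.f a * nit t a else 0

lemma norm_FF_le (χ : PO.Char) (t : ℝ) (ν : O) {α : O → ℂ} {X G T : ℝ} (h : ClassGT α X G T)
    {a : O} (ha : Primary a) : ‖FF χ t ν α a‖ ≤ G := by
  rw [FF]
  split_ifs
  · rw [norm_mul, norm_mul]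
    calc ‖α a‖ * ‖χ.f a‖ * ‖nit t a‖ ≤ G * 1 * 1 := by
          have h1 := h.bound a
          have h2 := χ.norm_le (a := a) ha
          have h3 := norm_nit_le (t := t) (b := a) ha
          have h0 := h.nonneg
          gcongr
      _ = G := by ring
  · rw [norm_zero]; exact h.nonneg

lemma sum_FF (χ : PO.Char) (t : ℝ) (ν : O) (α : O → ℂ) (X : ℝ) [DecidablePred fun a => IsCoprime a ν] :
    ∑ a ∈ PB X with IsCoprime a ν, α a * χ.f a * nit t a = ∑ a ∈ PB X, FF χ t ν α a := by
  rw [sum_filter]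
  refine sum_congr rfl fun a _ => ?_
  rw [FF]
  split_ifs <;> rfl

/-- bound for the inner sum over the largest prime -/
lemma inner_bound (χ : PO.Char) (t : ℝ) {ν : O} (hν : ν ≠ 0) {α : O → ℂ}
    {X G T z E : ℝ} (h : ClassGT α X G T) (hz : 0 < z) (hTz : T ≤ z) {m : O} (hm : Primary m)
    (hX : 0 ≤ X)
    (hE : ∀ w : ℕ → ℂ, BV w G →
      ‖∑ p ∈ prm (X / N m) with thr z m < N p, w (N p) * χ.f p * nit t p‖ ≤ E) :
    ‖∑ p ∈ prm (X / N m) with thr z m < N p, FF χ t ν α (m * p)‖ ≤ E + G * (pdv ν).card := by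
  classical
  obtain ⟨w, hw, hwp⟩ := h.str m hm
  have hG := h.nonneg
  have hNm : (0 : ℝ) < N m := by exact_mod_cast N_pos hm.ne_zero
  have hE0 : 0 ≤ E := (norm_nonneg _).trans (hE w hw)
  set s := (prm (X / N m)).filter (fun p => thr z m < N p) with hs
  have hmem : ∀ p ∈ s, Primary p ∧ Prime p ∧ α (m * p) = w (N p) := by
    intro p hp
    rw [hs, mem_filter, mem_prm (by positivity), mem_PO', thr, max_lt_iff] at hp
    obtain ⟨⟨h1, h2, h3⟩, h5, h6⟩ := hp
    refine ⟨h1, h3, hwp p h1 h3 (hTz.trans_lt ((Nat.floor_lt hz.le).1 h5)) ?_⟩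
    exact (lt_topN_iff hm.ne_zero (N_pos h1.ne_zero)).1 h6
  clear_value s
  by_cases hcm : IsCoprime m ν
  · have h1 : ∑ p ∈ s, FF χ t ν α (m * p) = (χ.f m * nit t m) *
        (∑ p ∈ s, w (N p) * χ.f p * nit t p -
          ∑ p ∈ s with p ∣ ν, w (N p) * χ.f p * nit t p) := by
      have h2 : ∑ p ∈ s, w (N p) * χ.f p * nit t p -
          ∑ p ∈ s with p ∣ ν, w (N p) * χ.f p * nit t p =
          ∑ p ∈ s with ¬ p ∣ ν, w (N p) * χ.f p * nit t p := by
        rw [sub_eq_iff_eq_add, add_comm]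
        exact (sum_filter_add_sum_filter_not s (fun p => p ∣ ν) _).symm
      rw [h2, sum_filter, mul_sum]
      refine sum_congr rfl fun p hp => ?_
      obtain ⟨h3, h4, h5⟩ := hmem p hp
      rw [FF]
      have h6 : IsCoprime (m * p) ν ↔ ¬ p ∣ ν := by
        rw [IsCoprime.mul_left_iff, Irreducible.coprime_iff_not_dvd h4.irreducible]
        exact ⟨fun h => h.2, fun h => ⟨hcm, h⟩⟩
      by_cases h7 : p ∣ ν
      · rw [if_neg (by rw [h6]; exact not_not.2 h7), if_neg (not_not.2 h7), mul_zero]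
      · rw [if_pos (h6.2 h7), if_pos h7, h5, χ.mul m hm p h3, nit_mul t hm.ne_zero h3.ne_zero]
        ring
    rw [h1, norm_mul]
    have h2 : ‖χ.f m * nit t m‖ ≤ 1 := by
      rw [norm_mul]
      exact mul_le_one₀ (χ.norm_le hm) (norm_nonneg _) (norm_nit_le hm)
    have h3 : ‖∑ p ∈ s with p ∣ ν, w (N p) * χ.f p * nit t p‖ ≤ G * (pdv ν).card := by
      refine (norm_sum_le _ _).trans ?_
      calc ∑ p ∈ s with p ∣ ν, ‖w (N p) * χ.f p * nit t p‖ ≤ ∑ p ∈ s with p ∣ ν, G := by
            refine sum_le_sum fun p hp => ?_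
            rw [mem_filter] at hp
            obtain ⟨h3, h4, h5⟩ := hmem p hp.1
            rw [norm_mul, norm_mul]
            calc ‖w (N p)‖ * ‖χ.f p‖ * ‖nit t p‖ ≤ G * 1 * 1 := by
                  have h6 := hw.norm_le (N p)
                  have h7 := χ.norm_le (a := p) h3
                  have h8 := norm_nit_le (t := t) (b := p) h3
                  gcongr
              _ = G := by ring
        _ = ((s.filter (fun p => p ∣ ν)).card : ℝ) * G := by rw [sum_const, nsmul_eq_mul]
        _ ≤ ((pdv ν).card : ℝ) * G := by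
            gcongr
            intro p hp
            rw [mem_filter] at hp
            obtain ⟨h3, h4, h5⟩ := hmem p hp.1
            exact (mem_pdv hν).2 ⟨h3, h4, hp.2⟩
        _ = _ := mul_comm _ _
    calc ‖χ.f m * nit t m‖ * ‖∑ p ∈ s, w (N p) * χ.f p * nit t p -
          ∑ p ∈ s with p ∣ ν, w (N p) * χ.f p * nit t p‖
        ≤ 1 * (E + G * (pdv ν).card) := by
          apply mul_le_mul h2 _ (norm_nonneg _) zero_le_one
          exact (norm_sub_le _ _).trans (add_le_add (hE w hw) h3)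
      _ = _ := one_mul _
  · have h1 : ∑ p ∈ s, FF χ t ν α (m * p) = 0 := by
      apply sum_eq_zero
      intro p hp
      rw [FF, if_neg]
      intro h
      exact hcm (IsCoprime.of_mul_left_left h)
    rw [h1, norm_zero]; positivity

/-- **Siegel–Walfisz for class G coefficients**, with threshold `T ≤ (log X) ^ C`. -/
theorem SWGT (A C : ℕ) : ∃ c0 : ℝ, 0 < c0 ∧
    ∀ (χ : PO.Char) (M : O), IsPer χ M → ∀ X t : ℝ, 3 ≤ X → (N M : ℝ) ≤ (Real.log X) ^ C →
      |t| ≤ (Real.log X) ^ C → ∀ ν : O, ν ≠ 0 → (N ν : ℝ) ≤ X ^ C →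
      ∀ (α : O → ℂ) (G T : ℝ), ClassGT α X G T → T ≤ (Real.log X) ^ C →
      ∀ [DecidablePred fun a => IsCoprime a ν],
      ‖∑ a ∈ PB X with IsCoprime a ν, α a * χ.f a * nit t a‖ ≤
        c0 * G * X / (Real.log X) ^ A := by
  classical
  obtain ⟨c2, hc2, hprime⟩ := prime_sum_bound SW.SW_core (3 * (A + 1)) (3 * C)
  obtain ⟨c3, hc3, hsm⟩ := smooth_count A
  set f3 : ℝ := ((3 * (A + 1)).factorial : ℝ) with hf3
  have hf30 : 0 < f3 := by rw [hf3]; positivity
  set l0 : ℝ := max 2 ((3 * C + 1).factorial : ℝ) with hl0def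
  have hl02 : 2 ≤ l0 := le_max_left _ _
  refine ⟨48 * c2 + 8 * C * f3 + 192 * f3 + c3 + 4 * (l0 ^ 3) ^ A, by positivity, ?_⟩
  intro χ M hM X t hX hN ht ν hν hNν α G T hα hT _
  have hX0 : 0 < X := by linarith
  have hG := hα.nonneg
  have hL1 := one_lt_log hX
  have hL0 : 0 < Real.log X := by linarith
  rw [sum_FF]
  rcases lt_or_ge (Real.log X) (l0 ^ 3) with h8 | h8
  · -- small `X`
    have h1 : ‖∑ a ∈ PB X, FF χ t ν α a‖ ≤ 4 * X * G := by
      refine (norm_sum_le _ _).trans ?_
      calc ∑ a ∈ PB X, ‖FF χ t ν α a‖ ≤ ∑ a ∈ PB X, G :=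
            sum_le_sum fun a ha => norm_FF_le χ t ν hα (mem_PB.1 ha).1
        _ = (PB X).card * G := by rw [sum_const, nsmul_eq_mul]
        _ ≤ _ := mul_le_mul_of_nonneg_right (card_PB_le hX0.le) hG
    rw [le_div_iff₀ (by positivity)]
    calc ‖∑ a ∈ PB X, FF χ t ν α a‖ * Real.log X ^ A ≤ (4 * X * G) * (l0 ^ 3) ^ A := by
          gcongr
      _ = 4 * (l0 ^ 3) ^ A * G * X := by ring
      _ ≤ _ := by
          have : 0 ≤ (48 * c2 + 8 * C * f3 + 192 * f3 + c3) * (G * X) := by positivity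
          linarith
  -- large `X`
  set l : ℝ := (Real.log X) ^ ((1 : ℝ) / 3) with hl
  have hl3 : l ^ 3 = Real.log X := by
    rw [hl, ← Real.rpow_natCast, ← Real.rpow_mul hL0.le]; norm_num
  have hl0 : 0 < l := Real.rpow_pos_of_pos hL0 _
  have hll0 : l0 ≤ l := by
    by_contra h
    push Not at h
    have : l ^ 3 < l0 ^ 3 := pow_lt_pow_left₀ h hl0.le (by norm_num)
    rw [hl3] at this
    linarith
  have hl2 : 2 ≤ l := hl02.trans hll0
  have hexp : Real.exp (l ^ 3) = X := by rw [hl3, Real.exp_log hX0]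
  set z := Real.exp l with hz
  have hz0 : 0 < z := Real.exp_pos l
  have hz3 : 3 ≤ z := by
    calc (3 : ℝ) ≤ 2 + 1 := by norm_num
      _ ≤ Real.exp 2 := Real.add_one_le_exp 2
      _ ≤ z := Real.exp_le_exp.2 hl2
  have hlX : l ≤ Real.log X := by
    have h1 : 1 ≤ l ^ 2 := one_le_pow₀ (by linarith)
    calc l = l * 1 := (mul_one l).symm
      _ ≤ l * l ^ 2 := by gcongr
      _ = l ^ 3 := by ring
      _ = Real.log X := hl3
  have hzX : z ≤ X := by rw [← hexp]; exact Real.exp_le_exp.2 (by rw [hl3]; exact hlX)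
  have hXz1 : 1 ≤ X / z := by rw [le_div_iff₀ hz0]; linarith
  have hTz : T ≤ z := by
    refine hT.trans ?_
    rw [← hl3, ← pow_mul]
    have h1 := exp_bound (3 * C + 1) hl0.le
    have h2 : ((3 * C + 1).factorial : ℝ) ≤ l := (le_max_right _ _).trans hll0
    have h3 : l ^ (3 * C) * l ≤ l * z := by
      calc l ^ (3 * C) * l = l ^ (3 * C + 1) := by ring
        _ ≤ (3 * C + 1).factorial * Real.exp l := h1
        _ ≤ l * z := by rw [hz]; gcongr
    rw [mul_comm] at h3
    exact le_of_mul_le_mul_left h3 hl0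
  -- `L ^ (A+1) ≤ f3 * z`
  have hLz : (Real.log X) ^ (A + 1) ≤ f3 * z := by
    rw [← hl3, ← pow_mul]; exact exp_bound (3 * (A + 1)) hl0.le
  -- decomposition
  set im := (pairs z X).image (fun x => x.1 * x.2) with him
  have hsub : im ⊆ PB X := by
    intro a ha
    rw [him, mem_image] at ha
    obtain ⟨x, hx, rfl⟩ := ha
    exact pairs_mul_mem hz0 hX0.le hx
  have hdec : ∑ a ∈ PB X, FF χ t ν α a =
      ∑ a ∈ PB X \ im, FF χ t ν α a + ∑ a ∈ im, FF χ t ν α a := (sum_sdiff hsub).symm
  -- first part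
  have hpart1 : ‖∑ a ∈ PB X \ im, FF χ t ν α a‖ ≤
      G * ((SF (PP z) X).card + (conjSet z X).card) := by
    have h1 : ∑ a ∈ PB X \ im, FF χ t ν α a =
        ∑ a ∈ (PB X \ im).filter (fun a => α a ≠ 0), FF χ t ν α a := by
      symm
      apply sum_filter_of_ne
      intro a _ h h0
      apply h
      rw [FF, h0]; simp
    rw [h1]
    refine (norm_sum_le _ _).trans ?_
    have h2 : (PB X \ im).filter (fun a => α a ≠ 0) ⊆ SF (PP z) X ∪ conjSet z X := by
      intro a ha
      rw [mem_filter, mem_sdiff] at ha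
      rw [mem_union]
      apply mem_of_not_image hz0 hX0.le ha.1.1 (hα.supp a ha.2).2.1
      intro x hx hxa
      exact ha.1.2 (by rw [him, mem_image]; exact ⟨x, hx, hxa⟩)
    calc ∑ a ∈ (PB X \ im).filter (fun a => α a ≠ 0), ‖FF χ t ν α a‖
        ≤ ∑ a ∈ (PB X \ im).filter (fun a => α a ≠ 0), G := by
          refine sum_le_sum fun a ha => ?_
          rw [mem_filter, mem_sdiff, mem_PB] at ha
          exact norm_FF_le χ t ν hα ha.1.1.1
      _ = (((PB X \ im).filter (fun a => α a ≠ 0)).card : ℝ) * G := by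
          rw [sum_const, nsmul_eq_mul]
      _ ≤ ((SF (PP z) X).card + (conjSet z X).card : ℝ) * G := by
          gcongr
          have := (card_le_card h2).trans (card_union_le _ _)
          exact_mod_cast this
      _ = _ := mul_comm _ _
  have hSF : ((SF (PP z) X).card : ℝ) ≤ c3 * X / (Real.log X) ^ A := by
    have := hsm l hl2
    rwa [hexp, hl3] at this
  have h2L : 2 + Real.log X ≤ 3 * Real.log X := by linarith
  have hCS : ((conjSet z X).card : ℝ) ≤ 192 * f3 * X / (Real.log X) ^ A := by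
    refine (card_conjSet hz0 (by linarith)).trans ?_
    rw [le_div_iff₀ (by positivity)]
    calc 64 * X / z * (2 + Real.log X) * Real.log X ^ A
        ≤ 64 * X / z * (3 * Real.log X) * Real.log X ^ A := by gcongr
      _ = 192 * X / z * (Real.log X) ^ (A + 1) := by ring
      _ ≤ 192 * X / z * (f3 * z) := by gcongr
      _ = 192 * f3 * X := by field_simp
  -- second part
  have hpart2 : ‖∑ a ∈ im, FF χ t ν α a‖ ≤ (48 * c2 + 8 * C * f3) * G * X / (Real.log X) ^ A := by
    rw [him, sum_image (pairs_injOn hz0 hX0.le), pairs, sum_sigma]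
    refine (norm_sum_le _ _).trans ?_
    have hinner : ∀ m ∈ PB (X / z),
        ‖∑ p ∈ prm (X / N m) with thr z m < N p, FF χ t ν α (m * p)‖ ≤
          c2 * G * X / (Real.log X) ^ (A + 1) * (1 / (N m : ℝ)) + G * (2 * C * Real.log X) := by
      intro m hm
      rw [mem_PB] at hm
      have hNm : (0 : ℝ) < N m := by exact_mod_cast N_pos hm.1.ne_zero
      have hyz : z ≤ X / N m := by
        rw [le_div_iff₀ hNm]
        have := hm.2
        rw [le_div_iff₀ hz0] at this
        linarith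
      have hly : l ≤ Real.log (X / N m) := by
        have := Real.log_le_log hz0 hyz
        rwa [hz, Real.log_exp] at this
      have hpow : (Real.log X) ^ C ≤ (Real.log (X / N m)) ^ (3 * C) := by
        rw [← hl3, ← pow_mul]; exact pow_le_pow_left₀ hl0.le hly _
      have h1 := inner_bound χ t hν (z := z) (E := c2 * G * X / (Real.log X) ^ (A + 1) *
        (1 / (N m : ℝ))) hα hz0 hTz hm.1 hX0.le (by
          intro w hw
          have h2 := hprime χ M hM (X / N m) t (hz3.trans hyz) (hN.trans hpow) (ht.trans hpow)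
            w G hw (thr z m) (X / N m) le_rfl
          refine h2.trans ?_
          have h3 : (Real.log X) ^ (A + 1) ≤ (Real.log (X / N m)) ^ (3 * (A + 1)) := by
            rw [← hl3, ← pow_mul]; exact pow_le_pow_left₀ hl0.le hly _
          calc c2 * G * (X / N m) / (Real.log (X / N m)) ^ (3 * (A + 1))
              ≤ c2 * G * (X / N m) / (Real.log X) ^ (A + 1) := by
                apply div_le_div_of_nonneg_left (by positivity) (by positivity) h3
            _ = _ := by ring)
      refine h1.trans ?_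
      have h4 : ((pdv ν).card : ℝ) ≤ 2 * C * Real.log X := by
        refine (card_pdv_le hν).trans ?_
        have h5 := Real.log_le_log (by exact_mod_cast N_pos hν) hNν
        rw [Real.log_pow] at h5
        linarith
      gcongr
    refine (sum_le_sum hinner).trans ?_
    rw [sum_add_distrib, ← mul_sum, sum_const, nsmul_eq_mul]
    have h5 := harm_le hXz1
    have h6 : Real.log (X / z) ≤ Real.log X := Real.log_le_log (by positivity)
      (div_le_self hX0.le (by linarith))
    have h7 := card_PB_le (X := X / z) (by positivity)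
    rw [le_div_iff₀ (by positivity)]
    calc (c2 * G * X / Real.log X ^ (A + 1) * ∑ b ∈ PB (X / z), 1 / (N b : ℝ) +
          (PB (X / z)).card * (G * (2 * C * Real.log X))) * Real.log X ^ A
        ≤ (c2 * G * X / Real.log X ^ (A + 1) * (16 * (3 * Real.log X)) +
          (4 * (X / z)) * (G * (2 * C * Real.log X))) * Real.log X ^ A := by
          gcongr
          linarith
      _ = 48 * c2 * G * X + 8 * C * G * X / z * (Real.log X) ^ (A + 1) := by
          field_simp
          ring
      _ ≤ 48 * c2 * G * X + 8 * C * G * X / z * (f3 * z) := by gcongr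
      _ = (48 * c2 + 8 * C * f3) * G * X := by field_simp
  rw [hdec]
  refine (norm_add_le _ _).trans ((add_le_add hpart1 hpart2).trans ?_)
  calc G * ((SF (PP z) X).card + (conjSet z X).card : ℝ) +
        (48 * c2 + 8 * C * f3) * G * X / Real.log X ^ A
      ≤ G * (c3 * X / (Real.log X) ^ A + 192 * f3 * X / (Real.log X) ^ A) +
        (48 * c2 + 8 * C * f3) * G * X / Real.log X ^ A := by gcongr
    _ = (48 * c2 + 8 * C * f3 + 192 * f3 + c3) * G * X / Real.log X ^ A := by ring
    _ ≤ _ := by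
        have h9 : (0 : ℝ) ≤ 4 * (l0 ^ 3) ^ A := by positivity
        apply div_le_div_of_nonneg_right _ (by positivity)
        apply mul_le_mul_of_nonneg_right _ hX0.le
        apply mul_le_mul_of_nonneg_right _ hG
        linarith

/-- **Siegel–Walfisz for class G coefficients.** -/
theorem SWG (A C : ℕ) : ∃ c0 : ℝ, 0 < c0 ∧
    ∀ (χ : PO.Char) (M : O), IsPer χ M → ∀ X t : ℝ, 3 ≤ X → (N M : ℝ) ≤ (Real.log X) ^ C →
      |t| ≤ (Real.log X) ^ C → ∀ ν : O, ν ≠ 0 → (N ν : ℝ) ≤ X ^ C →
      ∀ (α : O → ℂ) (G : ℝ), ClassG α X G → ∀ [DecidablePred fun a => IsCoprime a ν],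
      ‖∑ a ∈ PB X with IsCoprime a ν, α a * χ.f a * nit t a‖ ≤
        c0 * G * X / (Real.log X) ^ A := by
  obtain ⟨c0, hc0, h⟩ := SWGT A C
  refine ⟨c0, hc0, ?_⟩
  intro χ M hM X t hX hN ht ν hν hNν α G hα _
  have hL1 := one_lt_log hX
  exact h χ M hM X t hX hN ht ν hν hNν α G 0 (hα.toGT 0) (by positivity)

end Vale.Agent.P006.H570
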