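import Mathlib

/-!
# Abstract system of primary elements with unique factorisation and norm
-/

namespace Vale.Agent.P006.H570

open Finset

/-- A system of primary elements in a domain `R`, with a multiplicative norm. -/
structure PSys (R : Type*) [CommRing R] [IsDomain R] where
  P : Submonoid R
  N : R →*₀ ℕ
  zero_notMem : (0 : R) ∉ P
  unit_eq : ∀ (u : Rˣ) (a : R), a ∈ P → (u : R) * a ∈ P → u = 1
  exists_unit : ∀ a ∈ P, ∀ d, d ∣ a → ∃ u : Rˣ, (u : R) * d ∈ P
  N_prime : ∀ p, Prime p → 2 ≤ N p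
  finite : ∀ n : ℕ, {a : R | a ∈ P ∧ N a ≤ n}.Finite

namespace PSys

variable {R : Type*} [CommRing R] [IsDomain R] (S : PSys R)

lemma ne_zero {a : R} (ha : a ∈ S.P) : a ≠ 0 := fun h => S.zero_notMem (h ▸ ha)

lemma N_unit (u : Rˣ) : S.N (u : R) = 1 := by
  have h : S.N (u : R) * S.N ((u⁻¹ : Rˣ) : R) = 1 := by
    rw [← map_mul, Units.mul_inv, map_one]
  exact Nat.eq_one_of_mul_eq_one_right h

lemma isUnit_eq_one {a : R} (ha : a ∈ S.P) (hu : IsUnit a) : a = 1 := by
  obtain ⟨u, rfl⟩ := hu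
  have h := S.unit_eq u 1 S.P.one_mem (by simpa using ha)
  rw [h]; rfl

lemma mem_of_mul {a b : R} (ha : a ∈ S.P) (hab : a * b ∈ S.P) : b ∈ S.P := by
  obtain ⟨u, hu⟩ := S.exists_unit _ hab b (Dvd.intro_left a rfl)
  have h1 : (u : R) * (a * b) ∈ S.P := by
    have := S.P.mul_mem ha hu
    convert this using 1; ring
  have h2 := S.unit_eq u _ hab h1
  simpa [h2] using hu

lemma eq_of_associated {a b : R} (ha : a ∈ S.P) (hb : b ∈ S.P) (h : Associated a b) : a = b := by
  obtain ⟨u, hu⟩ := h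
  have h1 : (u : R) * a ∈ S.P := by rw [mul_comm, hu]; exact hb
  have h2 := S.unit_eq u a ha h1
  simpa [h2] using hu

lemma N_pos [UniqueFactorizationMonoid R] {a : R} (ha : a ≠ 0) : 0 < S.N a := by
  induction a using UniqueFactorizationMonoid.induction_on_prime with
  | h₁ => exact absurd rfl ha
  | h₂ x hx => 
    obtain ⟨u, rfl⟩ := hx
    rw [S.N_unit]; exact one_pos
  | h₃ a p ha' hp ih =>
    rw [map_mul]
    have := S.N_prime p hp
    have := ih ha'
    positivity

lemma N_pos' [UniqueFactorizationMonoid R] {a : R} (ha : a ∈ S.P) : 0 < S.N a :=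
  S.N_pos (S.ne_zero ha)

/-- induction on primary elements -/
lemma induction_P [UniqueFactorizationMonoid R] {Q : R → Prop} (h1 : Q 1)
    (hp : ∀ a p, a ∈ S.P → p ∈ S.P → Prime p → Q a → Q (p * a)) {a : R} (ha : a ∈ S.P) : Q a := by
  have key : ∀ a : R, ∀ u : Rˣ, (u : R) * a ∈ S.P → Q ((u : R) * a) := by
    intro a
    induction a using UniqueFactorizationMonoid.induction_on_prime with
    | h₁ =>
      intro u hu
      rw [mul_zero] at hu
      exact absurd hu S.zero_notMem
    | h₂ x hx =>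
      intro u hu
      have := S.isUnit_eq_one hu (u.isUnit.mul hx)
      rw [this]; exact h1
    | h₃ a p ha' hp' ih =>
      intro u hu
      obtain ⟨v, hv⟩ := S.exists_unit _ hu p ⟨(u : R) * a, by ring⟩
      have h2 : ((v : R) * p) * (((u * v⁻¹ : Rˣ) : R) * a) = (u : R) * (p * a) := by
        have : ((u * v⁻¹ : Rˣ) : R) = (u : R) * ((v⁻¹ : Rˣ) : R) := by push_cast; rfl
        rw [this]
        calc (v : R) * p * ((u : R) * ((v⁻¹ : Rˣ) : R) * a)
            = ((v : R) * ((v⁻¹ : Rˣ) : R)) * ((u : R) * (p * a)) := by ring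
          _ = _ := by rw [Units.mul_inv, one_mul]
      rw [← h2] at hu ⊢
      have h3 := S.mem_of_mul hv hu
      refine hp _ _ h3 hv ?_ (ih _ h3)
      exact (Associated.prime_iff (associated_unit_mul_right p _ v.isUnit)).1 hp'
  simpa using key a 1 (by simpa using ha)

/-- primary elements of norm at most `n` -/
noncomputable def ball (n : ℕ) : Finset R := (S.finite n).toFinset

lemma mem_ball {n : ℕ} {a : R} : a ∈ S.ball n ↔ a ∈ S.P ∧ S.N a ≤ n := by
  simp [ball]

open Classical in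
/-- primary elements of norm `n` -/
noncomputable def sph (n : ℕ) : Finset R := (S.ball n).filter (fun a => S.N a = n)

lemma mem_sph {n : ℕ} {a : R} : a ∈ S.sph n ↔ a ∈ S.P ∧ S.N a = n := by
  simp only [sph, mem_filter, mem_ball]
  constructor
  · rintro ⟨⟨h1, _⟩, h3⟩; exact ⟨h1, h3⟩
  · rintro ⟨h1, h2⟩; exact ⟨⟨h1, h2.le⟩, h2⟩

open Classical in
/-- primary divisors of `b` -/
noncomputable def divs (b : R) : Finset R := (S.ball (S.N b)).filter (fun d => d ∣ b)

lemma mem_divs [UniqueFactorizationMonoid R] {b d : R} (hb : b ∈ S.P) :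
    d ∈ S.divs b ↔ d ∈ S.P ∧ d ∣ b := by
  simp only [divs, mem_filter, mem_ball]
  constructor
  · rintro ⟨⟨h1, _⟩, h3⟩; exact ⟨h1, h3⟩
  · rintro ⟨h1, h2⟩
    refine ⟨⟨h1, Nat.le_of_dvd (S.N_pos' hb) (map_dvd S.N h2)⟩, h2⟩

/-- `d` is a positive power of the primary prime `p` -/
def IsPP (p d : R) : Prop := p ∈ S.P ∧ Prime p ∧ ∃ k : ℕ, 1 ≤ k ∧ d = p ^ k

lemma isPP_unique {p q d : R} (hp : S.IsPP p d) (hq : S.IsPP q d) : p = q := by
  obtain ⟨hp1, hp2, k, hk, rfl⟩ := hp
  obtain ⟨hq1, hq2, j, hj, h⟩ := hq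
  have h1 : p ∣ q ^ j := by rw [← h]; exact dvd_pow_self p (by omega)
  have h2 : p ∣ q := hp2.dvd_of_dvd_pow h1
  exact S.eq_of_associated hp1 hq1 (hp2.associated_of_dvd hq2 h2)

open Classical in
/-- von Mangoldt function on `R` -/
noncomputable def vM (d : R) : ℝ := if h : ∃ p, S.IsPP p d then Real.log (S.N h.choose) else 0

lemma vM_eq {p d : R} (h : S.IsPP p d) : S.vM d = Real.log (S.N p) := by
  have h' : ∃ p, S.IsPP p d := ⟨p, h⟩
  rw [vM, dif_pos h', S.isPP_unique h'.choose_spec h]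

lemma vM_pow {p : R} (hp : p ∈ S.P) (hp' : Prime p) {k : ℕ} (hk : 1 ≤ k) :
    S.vM (p ^ k) = Real.log (S.N p) := S.vM_eq ⟨hp, hp', k, hk, rfl⟩

lemma vM_nonneg (d : R) : 0 ≤ S.vM d := by
  rw [vM]
  split_ifs with h
  · exact Real.log_natCast_nonneg _
  · exact le_rfl

/-- Mangoldt identity -/
theorem sum_vM_divs [UniqueFactorizationMonoid R] {b : R} (hb : b ∈ S.P) :
    ∑ d ∈ S.divs b, S.vM d = Real.log (S.N b) := by
  classical
  refine S.induction_P (Q := fun b => ∑ d ∈ S.divs b, S.vM d = Real.log (S.N b)) ?_ ?_ hb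
  · have h : ∀ d ∈ S.divs (1 : R), S.vM d = 0 := by
      intro d hd
      rw [S.mem_divs S.P.one_mem] at hd
      have h1 : d = 1 := S.isUnit_eq_one hd.1 (isUnit_of_dvd_one hd.2)
      rw [vM, dif_neg]
      rintro ⟨p, hp, hp', k, hk, h⟩
      rw [h1] at h
      exact hp'.not_isUnit (isUnit_of_dvd_one (h ▸ dvd_pow_self p (by omega)))
    rw [sum_congr rfl h]; simp
  · intro a p ha hp hp' ih
    have hpa : p * a ∈ S.P := S.P.mul_mem hp ha
    -- multiplicity
    have ha0 : a ≠ 0 := S.ne_zero ha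
    have hfin : FiniteMultiplicity p a := FiniteMultiplicity.of_prime_left hp' ha0
    set v := multiplicity p a with hv
    have hpv : p ^ v ∣ a := pow_multiplicity_dvd p a
    have hpv' : ¬ p ^ (v + 1) ∣ a := hfin.not_pow_dvd_of_multiplicity_lt (Nat.lt_succ_self _)
    have hsub : insert (p ^ (v + 1)) (S.divs a) ⊆ S.divs (p * a) := by
      intro d hd
      rw [mem_insert] at hd
      rw [S.mem_divs hpa]
      rcases hd with rfl | hd
      · refine ⟨S.P.pow_mem hp _, ?_⟩
        rw [pow_succ']; exact mul_dvd_mul_left p hpv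
      · rw [S.mem_divs ha] at hd
        exact ⟨hd.1, hd.2.mul_left p⟩
    have hz : ∀ d ∈ S.divs (p * a), d ∉ insert (p ^ (v + 1)) (S.divs a) → S.vM d = 0 := by
      intro d hd hd'
      rw [mem_insert, not_or] at hd'
      rw [S.mem_divs hpa] at hd
      rw [S.mem_divs ha, not_and] at hd'
      rw [vM, dif_neg]
      rintro ⟨q, hq, hq', k, hk, rfl⟩
      by_cases hqp : q = p
      · subst hqp
        obtain ⟨k, rfl⟩ : ∃ j, k = j + 1 := ⟨k - 1, by omega⟩
        have h1 : q ^ k ∣ a := by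
          have := hd.2
          rw [pow_succ'] at this
          exact (mul_dvd_mul_iff_left hq'.ne_zero).1 this
        have h2 : ¬ q ^ (k + 1) ∣ a := hd'.2 hd.1
        have h3 : k ≤ v := hfin.le_multiplicity_of_pow_dvd h1
        have h4 : ¬ (k + 1 ≤ v) := fun h => h2 ((pow_dvd_pow q h).trans hpv)
        have : k = v := by omega
        subst this
        exact hd'.1 rfl
      · have h1 : IsRelPrime (q ^ k) p := by
          apply IsRelPrime.pow_left
          rw [hq'.irreducible.isRelPrime_iff_not_dvd]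
          intro h
          exact hqp (S.eq_of_associated hq hp (hq'.associated_of_dvd hp' h))
        exact hd'.2 hd.1 (h1.dvd_of_dvd_mul_left hd.2)
    rw [← sum_subset hsub hz, sum_insert, ih, S.vM_pow hp hp' (by omega), map_mul]
    · push_cast
      rw [Real.log_mul]
      · have := S.N_pos' hp; positivity
      · have := S.N_pos' ha; positivity
    · rw [S.mem_divs ha, not_and]
      exact fun _ => hpv'

end PSys

end Vale.Agent.P006.H570
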